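import Mathlib.Analysis.Complex.AbsMax
import Mathlib.Analysis.Complex.Liouville
import Mathlib.Analysis.Complex.ReImTopology
import Mathlib.Analysis.SpecialFunctions.Log.Basic
import Mathlib.Analysis.SpecialFunctions.ExpDeriv

/-!
The two constants lemma (core of step C3): a function which is bounded by `C` on a rectangle and
by `δ` on its real axis has derivative at most `e² (1 + log (C / δ)) δ / ρ` at the centre.
-/

open Set Metric Complex

namespace Vale.Agent.P159.TM.H870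

/-- the upper half rectangle -/
def upR (r ρ : ℝ) : Set ℂ := {z : ℂ | (-r < z.re ∧ z.re < r) ∧ 0 < z.im ∧ z.im < ρ}

lemma isOpen_upR (r ρ : ℝ) : IsOpen (upR r ρ) := by
  unfold upR
  refine ((isOpen_lt continuous_const continuous_re).inter
    (isOpen_lt continuous_re continuous_const)).inter
    ((isOpen_lt continuous_const continuous_im).inter (isOpen_lt continuous_im continuous_const))

lemma closure_upR_subset (r ρ : ℝ) :
    closure (upR r ρ) ⊆ {z : ℂ | (-r ≤ z.re ∧ z.re ≤ r) ∧ 0 ≤ z.im ∧ z.im ≤ ρ} := by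
  refine closure_minimal ?_ ?_
  · intro z hz
    exact ⟨⟨hz.1.1.le, hz.1.2.le⟩, hz.2.1.le, hz.2.2.le⟩
  · exact ((isClosed_le continuous_const continuous_re).inter
      (isClosed_le continuous_re continuous_const)).inter
      ((isClosed_le continuous_const continuous_im).inter
        (isClosed_le continuous_im continuous_const))

lemma isBounded_upR (r ρ : ℝ) : Bornology.IsBounded (upR r ρ) := by
  refine (isBounded_iff_forall_norm_le).2 ⟨|r| + |ρ|, fun z hz => ?_⟩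
  refine (Complex.norm_le_abs_re_add_abs_im z).trans ?_
  refine add_le_add ?_ ?_
  · exact (abs_le.2 ⟨hz.1.1.le, hz.1.2.le⟩).trans (le_abs_self r)
  · rw [abs_of_pos hz.2.1]
    exact hz.2.2.le.trans (le_abs_self ρ)

lemma norm_exp_aux (A μ : ℝ) (z : ℂ) :
    ‖Complex.exp (-(A : ℂ) * z ^ 2 + Complex.I * μ * z)‖ =
      Real.exp (-A * (z.re ^ 2 - z.im ^ 2) - μ * z.im) := by
  rw [Complex.norm_exp]
  congr 1
  simp [pow_two]
  ring

/-- the two constants estimate in the upper half rectangle -/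
theorem up_bound {f : ℂ → ℂ} {r ρ C δ : ℝ} (hρ : 0 < ρ) (hr : ρ < r) (hδ : 0 < δ) (hC : δ ≤ C)
    (hc : ContinuousOn f {z : ℂ | (-r ≤ z.re ∧ z.re ≤ r) ∧ 0 ≤ z.im ∧ z.im ≤ ρ})
    (hd : DifferentiableOn ℂ f (upR r ρ))
    (hb : ∀ z : ℂ, -r ≤ z.re → z.re ≤ r → 0 ≤ z.im → z.im ≤ ρ → ‖f z‖ ≤ C)
    (hx : ∀ x : ℝ, -r ≤ x → x ≤ r → ‖f x‖ ≤ δ) {z : ℂ} (h1 : -r < z.re) (h2 : z.re < r)
    (h3 : 0 ≤ z.im) (h4 : z.im < ρ) :
    ‖f z‖ ≤ δ * Real.exp (Real.log (C / δ) / (r ^ 2 - ρ ^ 2) * (z.re ^ 2 - z.im ^ 2) +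
      (Real.log (C / δ) / ρ + Real.log (C / δ) / (r ^ 2 - ρ ^ 2) * ρ) * z.im) := by
  set L : ℝ := Real.log (C / δ) with hL
  have hC0 : 0 < C := lt_of_lt_of_le hδ hC
  have hL0 : 0 ≤ L := Real.log_nonneg ((one_le_div hδ).2 hC)
  have hrr : 0 < r ^ 2 - ρ ^ 2 := by nlinarith
  set A : ℝ := L / (r ^ 2 - ρ ^ 2) with hA
  have hA0 : 0 ≤ A := div_nonneg hL0 hrr.le
  set μ : ℝ := L / ρ + A * ρ with hμ
  have hμ0 : 0 ≤ μ := add_nonneg (div_nonneg hL0 hρ.le) (mul_nonneg hA0 hρ.le)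
  have heL : Real.exp (-L) = δ / C := by
    rw [Real.exp_neg, hL, Real.exp_log (div_pos hC0 hδ), inv_div]
  set F : ℂ → ℂ := fun z => f z * Complex.exp (-(A : ℂ) * z ^ 2 + Complex.I * μ * z) with hF
  have hFc : ContinuousOn F {z : ℂ | (-r ≤ z.re ∧ z.re ≤ r) ∧ 0 ≤ z.im ∧ z.im ≤ ρ} := by
    refine hc.mul (Continuous.continuousOn ?_)
    fun_prop
  have hFd : DiffContOnCl ℂ F (upR r ρ) := by
    refine ⟨?_, hFc.mono (closure_upR_subset r ρ)⟩
    refine hd.mul (Differentiable.differentiableOn ?_)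
    fun_prop
  have hFb : ∀ w ∈ frontier (upR r ρ), ‖F w‖ ≤ δ := by
    intro w hw
    have hwc := closure_upR_subset r ρ (frontier_subset_closure hw)
    have hwn : w ∉ upR r ρ := by
      rw [(isOpen_upR r ρ).frontier_eq] at hw
      exact hw.2
    obtain ⟨⟨w1, w2⟩, w3, w4⟩ := hwc
    have hn : ‖F w‖ = ‖f w‖ * Real.exp (-A * (w.re ^ 2 - w.im ^ 2) - μ * w.im) := by
      simp only [hF, norm_mul, norm_exp_aux]
    rw [hn]
    have key : ∀ t : ℝ, t ≤ -L → ‖f w‖ * Real.exp t ≤ δ := by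
      intro t ht
      calc ‖f w‖ * Real.exp t ≤ C * Real.exp (-L) :=
            mul_le_mul (hb w w1 w2 w3 w4) (Real.exp_le_exp.2 ht) (Real.exp_pos _).le hC0.le
        _ = δ := by rw [heL]; field_simp
    rcases eq_or_lt_of_le w3 with h0 | h0
    · have hwr : w = ((w.re : ℝ) : ℂ) := by
        exact Complex.ext (by simp) (by simp [← h0])
      have hfw : ‖f w‖ ≤ δ := by
        rw [hwr]
        exact hx w.re w1 w2
      have he : Real.exp (-A * (w.re ^ 2 - w.im ^ 2) - μ * w.im) ≤ 1 := by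
        rw [Real.exp_le_one_iff, ← h0]
        have : 0 ≤ A * w.re ^ 2 := mul_nonneg hA0 (sq_nonneg _)
        nlinarith
      calc ‖f w‖ * Real.exp (-A * (w.re ^ 2 - w.im ^ 2) - μ * w.im) ≤ δ * 1 :=
            mul_le_mul hfw he (Real.exp_pos _).le hδ.le
        _ = δ := mul_one _
    rcases eq_or_lt_of_le w4 with hρ' | hρ'
    · refine key _ ?_
      have e1 : A * ρ ^ 2 - μ * ρ = -L := by
        rw [hμ]
        field_simp
        ring
      rw [hρ']
      have : 0 ≤ A * w.re ^ 2 := mul_nonneg hA0 (sq_nonneg _)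
      nlinarith
    · have hor : w.re = -r ∨ w.re = r := by
        by_contra hcon
        push Not at hcon
        exact hwn ⟨⟨lt_of_le_of_ne w1 (Ne.symm hcon.1), lt_of_le_of_ne w2 hcon.2⟩, h0, hρ'⟩
      refine key _ ?_
      have hsq : w.re ^ 2 = r ^ 2 := by
        rcases hor with h | h <;> rw [h] <;> ring
      rw [hsq]
      have e1 : A * (r ^ 2 - ρ ^ 2) = L := by
        rw [hA]
        field_simp
      have e2 : w.im ^ 2 ≤ ρ ^ 2 := by nlinarith
      have e3 : 0 ≤ A * (ρ ^ 2 - w.im ^ 2) := mul_nonneg hA0 (by linarith)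
      have e4 : 0 ≤ μ * w.im := mul_nonneg hμ0 h0.le
      nlinarith
  have hz : z ∈ closure (upR r ρ) := by
    rcases eq_or_lt_of_le h3 with h0 | h0
    · rw [Metric.mem_closure_iff]
      intro ε hε
      refine ⟨z + (min (ε / 2) (ρ / 2) : ℝ) * Complex.I, ?_, ?_⟩
      · have hm : 0 < min (ε / 2) (ρ / 2) := lt_min (half_pos hε) (half_pos hρ)
        have hm' : min (ε / 2) (ρ / 2) < ρ := lt_of_le_of_lt (min_le_right _ _) (half_lt_self hρ)
        refine ⟨⟨?_, ?_⟩, ?_, ?_⟩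
        · simpa using h1
        · simpa using h2
        · simp [← h0, hε, hρ]
        · have : (z + (min (ε / 2) (ρ / 2) : ℝ) * Complex.I).im = min (ε / 2) (ρ / 2) := by
            simp [← h0]
          rw [this]
          exact hm'
      · rw [dist_eq_norm]
        have hm : 0 < min (ε / 2) (ρ / 2) := lt_min (half_pos hε) (half_pos hρ)
        have : z - (z + (min (ε / 2) (ρ / 2) : ℝ) * Complex.I) =
            -((min (ε / 2) (ρ / 2) : ℝ) * Complex.I) := by ring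
        rw [this, norm_neg, norm_mul, Complex.norm_I, mul_one, Complex.norm_real, Real.norm_eq_abs,
          abs_of_pos hm]
        exact lt_of_le_of_lt (min_le_left _ _) (half_lt_self hε)
    · exact subset_closure ⟨⟨h1, h2⟩, h0, h4⟩
  have hFz : ‖F z‖ ≤ δ :=
    Complex.norm_le_of_forall_mem_frontier_norm_le (isBounded_upR r ρ) hFd hFb hz
  have hn : ‖F z‖ = ‖f z‖ * Real.exp (-A * (z.re ^ 2 - z.im ^ 2) - μ * z.im) := by
    simp only [hF, norm_mul, norm_exp_aux]
  rw [hn] at hFz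
  have he : Real.exp (-A * (z.re ^ 2 - z.im ^ 2) - μ * z.im) *
      Real.exp (A * (z.re ^ 2 - z.im ^ 2) + μ * z.im) = 1 := by
    rw [← Real.exp_add]
    have : -A * (z.re ^ 2 - z.im ^ 2) - μ * z.im + (A * (z.re ^ 2 - z.im ^ 2) + μ * z.im) = 0 := by
      ring
    rw [this, Real.exp_zero]
  calc ‖f z‖ = ‖f z‖ * Real.exp (-A * (z.re ^ 2 - z.im ^ 2) - μ * z.im) *
        Real.exp (A * (z.re ^ 2 - z.im ^ 2) + μ * z.im) := by
          rw [mul_assoc, he, mul_one]
    _ ≤ δ * Real.exp (A * (z.re ^ 2 - z.im ^ 2) + μ * z.im) :=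
        mul_le_mul_of_nonneg_right hFz (Real.exp_pos _).le

/-- **Two constants lemma**. -/
theorem two_const {f : ℂ → ℂ} {r ρ C δ : ℝ} (hρ : 0 < ρ) (hr : 2 * ρ ≤ r) (hδ : 0 < δ)
    (hC : δ ≤ C) (hc : ContinuousOn f {z : ℂ | |z.re| ≤ r ∧ |z.im| ≤ ρ})
    (hd : DifferentiableOn ℂ f {z : ℂ | |z.re| < r ∧ |z.im| < ρ})
    (hb : ∀ z : ℂ, |z.re| ≤ r → |z.im| ≤ ρ → ‖f z‖ ≤ C)
    (hx : ∀ x : ℝ, |x| ≤ r → ‖f x‖ ≤ δ) :
    ‖deriv f 0‖ ≤ Real.exp 2 * (1 + Real.log (C / δ)) * δ / ρ := by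
  set L : ℝ := Real.log (C / δ) with hL
  have hC0 : 0 < C := lt_of_lt_of_le hδ hC
  have hL0 : 0 ≤ L := Real.log_nonneg ((one_le_div hδ).2 hC)
  have hr' : ρ < r := by linarith
  have hrr : 3 * ρ ^ 2 ≤ r ^ 2 - ρ ^ 2 := by nlinarith
  have hrr0 : 0 < r ^ 2 - ρ ^ 2 := by nlinarith
  set A : ℝ := L / (r ^ 2 - ρ ^ 2) with hA
  have hA0 : 0 ≤ A := div_nonneg hL0 hrr0.le
  have hA1 : A * ρ ^ 2 ≤ L / 3 := by
    rw [hA, div_mul_eq_mul_div, div_le_iff₀ hrr0]
    nlinarith
  set s : ℝ := ρ / (1 + L) with hs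
  have h1L : 0 < 1 + L := by linarith
  have hs0 : 0 < s := div_pos hρ h1L
  have hsρ : s ≤ ρ := by
    rw [hs, div_le_iff₀ h1L]
    nlinarith
  have hsL : s * (1 + L) = ρ := by
    rw [hs]
    field_simp
  -- the half rectangles
  have hup : ∀ g : ℂ → ℂ, ContinuousOn g {z : ℂ | |z.re| ≤ r ∧ |z.im| ≤ ρ} →
      DifferentiableOn ℂ g {z : ℂ | |z.re| < r ∧ |z.im| < ρ} →
      (∀ z : ℂ, |z.re| ≤ r → |z.im| ≤ ρ → ‖g z‖ ≤ C) → (∀ x : ℝ, |x| ≤ r → ‖g x‖ ≤ δ) →
      ∀ z : ℂ, |z.re| < r → 0 ≤ z.im → z.im < ρ →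
        ‖g z‖ ≤ δ * Real.exp (A * (z.re ^ 2 - z.im ^ 2) + (L / ρ + A * ρ) * z.im) := by
    intro g gc gd gb gx z h1 h2 h3
    refine up_bound hρ hr' hδ hC ?_ ?_ ?_ ?_ (abs_lt.1 h1).1 (abs_lt.1 h1).2 h2 h3
    · refine gc.mono fun w hw => ⟨abs_le.2 hw.1, ?_⟩
      rw [abs_of_nonneg hw.2.1]
      exact hw.2.2
    · refine gd.mono fun w hw => ⟨abs_lt.2 hw.1, ?_⟩
      rw [abs_of_pos hw.2.1]
      exact hw.2.2
    · intro w w1 w2 w3 w4
      refine gb w (abs_le.2 ⟨w1, w2⟩) ?_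
      rw [abs_of_nonneg w3]
      exact w4
    · intro x x1 x2
      exact gx x (abs_le.2 ⟨x1, x2⟩)
  have hall : ∀ z : ℂ, |z.re| < r → |z.im| < ρ →
      ‖f z‖ ≤ δ * Real.exp (A * (z.re ^ 2 - z.im ^ 2) + (L / ρ + A * ρ) * |z.im|) := by
    intro z h1 h2
    rcases le_or_gt 0 z.im with h | h
    · rw [abs_of_nonneg h]
      rw [abs_of_nonneg h] at h2
      exact hup f hc hd hb hx z h1 h h2
    · have hg := hup (fun w => f (-w)) ?_ ?_ ?_ ?_ (-z) ?_ ?_ ?_
      · rw [abs_of_neg h]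
        simpa using hg
      · refine hc.comp (continuous_neg.continuousOn) fun w hw => ?_
        simpa using hw
      · refine hd.comp (differentiable_neg.differentiableOn) fun w hw => ?_
        simpa using hw
      · intro w w1 w2
        exact hb (-w) (by simpa using w1) (by simpa using w2)
      · intro x hx'
        have := hx (-x) (by simpa using hx')
        simpa using this
      · simpa using h1
      · simpa using h.le
      · rw [abs_of_neg h] at h2
        simpa using h2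
  have hsph : ∀ z ∈ sphere (0 : ℂ) s, ‖f z‖ ≤ δ * Real.exp 2 := by
    intro z hz
    have hzn : ‖z‖ = s := by simpa using hz
    have hre : |z.re| ≤ s := hzn ▸ Complex.abs_re_le_norm z
    have him : |z.im| ≤ s := hzn ▸ Complex.abs_im_le_norm z
    rcases eq_or_lt_of_le hL0 with hL00 | hLpos
    · -- `C = δ`
      have hCδ : C = δ := by
        have : C / δ = 1 := by
          have h := Real.exp_log (div_pos hC0 hδ)
          rw [← hL, ← hL00, Real.exp_zero] at h
          exact h.symm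
        field_simp at this
        exact this
      calc ‖f z‖ ≤ C := hb z (by linarith) (by linarith)
        _ = δ * 1 := by rw [hCδ, mul_one]
        _ ≤ δ * Real.exp 2 :=
          mul_le_mul_of_nonneg_left (Real.one_le_exp (by norm_num)) hδ.le
    have hsρ' : s < ρ := by
      rw [hs, div_lt_iff₀ h1L]
      nlinarith
    refine (hall z (by linarith) (by linarith)).trans ?_
    refine mul_le_mul_of_nonneg_left (Real.exp_le_exp.2 ?_) hδ.le
    have e1 : A * (z.re ^ 2 - z.im ^ 2) ≤ A * s ^ 2 := by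
      refine mul_le_mul_of_nonneg_left ?_ hA0
      have : z.re ^ 2 ≤ s ^ 2 := by
        rw [← sq_abs z.re]
        exact pow_le_pow_left₀ (abs_nonneg _) hre 2
      nlinarith [sq_nonneg z.im]
    have hμ0 : 0 ≤ L / ρ + A * ρ := add_nonneg (div_nonneg hL0 hρ.le) (mul_nonneg hA0 hρ.le)
    have e2 : (L / ρ + A * ρ) * |z.im| ≤ (L / ρ + A * ρ) * s :=
      mul_le_mul_of_nonneg_left him hμ0
    -- A s² ≤ 1/3, (L/ρ + Aρ) s ≤ 4/3
    have e3 : A * s ^ 2 ≤ 1 / 3 := by
      have h1 : A * s ^ 2 * (1 + L) ^ 2 = A * ρ ^ 2 := by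
        rw [← hsL]
        ring
      have h2 : A * s ^ 2 * (1 + L) ^ 2 ≤ 1 / 3 * (1 + L) ^ 2 := by
        rw [h1]
        nlinarith
      exact le_of_mul_le_mul_right h2 (by positivity)
    have e4 : (L / ρ + A * ρ) * s ≤ 4 / 3 := by
      have h1 : (L / ρ + A * ρ) * s * (1 + L) = L + A * ρ ^ 2 := by
        rw [mul_assoc, hsL]
        field_simp
      have h2 : (L / ρ + A * ρ) * s * (1 + L) ≤ 4 / 3 * (1 + L) := by
        rw [h1]
        linarith
      exact le_of_mul_le_mul_right h2 h1L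
    linarith
  have hball : DiffContOnCl ℂ f (ball 0 s) := by
    refine ⟨hd.mono fun w hw => ?_, hc.mono fun w hw => ?_⟩
    · have hwn : ‖w‖ < s := by simpa using hw
      exact ⟨lt_of_le_of_lt (Complex.abs_re_le_norm w) (by linarith),
        lt_of_le_of_lt (Complex.abs_im_le_norm w) (by linarith)⟩
    · have hwn : ‖w‖ ≤ s := by
        have := closure_ball_subset_closedBall hw
        simpa using this
      exact ⟨(Complex.abs_re_le_norm w).trans (by linarith),
        (Complex.abs_im_le_norm w).trans (by linarith)⟩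
  have := Complex.norm_deriv_le_of_forall_mem_sphere_norm_le hs0 hball hsph
  refine this.trans (le_of_eq ?_)
  rw [hs]
  field_simp

end Vale.Agent.P159.TM.H870
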