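import Mathlib.Analysis.Complex.LocallyUniformLimit
import Mathlib.Analysis.Complex.Trigonometric
import Mathlib.Analysis.SpecialFunctions.Trigonometric.Bounds
import Mathlib.Analysis.SpecificLimits.Basic
import Vale.Agent.P159.TM.H870.TwoConst

/-!
Step C3 of P159: integer heights with a quadratic mass term in a complex background.

`w` is any nonnegative bounded weight on the heights `V → ℤ`, `m x > 0` the mass at `x`.
-/

open Set Metric Complex Filter Topology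

namespace Vale.Agent.P159.TM.H870

section summ

variable {V : Type*} [Fintype V] [DecidableEq V]

/-- products over the sites are summable over the heights -/
theorem summable_pi_prod {g : V → ℤ → ℝ} (h0 : ∀ x k, 0 ≤ g x k) (hg : ∀ x, Summable (g x)) :
    Summable fun h : V → ℤ => ∏ x, g x (h x) := by
  refine summable_of_sum_le (c := ∏ x, ∑' k, g x k)
    (fun h => Finset.prod_nonneg fun x _ => h0 x _) fun u => ?_
  calc ∑ h ∈ u, ∏ x, g x (h x)
      ≤ ∑ h ∈ Fintype.piFinset fun x => u.image fun h => h x, ∏ x, g x (h x) := by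
        refine Finset.sum_le_sum_of_subset_of_nonneg ?_
          fun h _ _ => Finset.prod_nonneg fun x _ => h0 x _
        intro h hh
        rw [Fintype.mem_piFinset]
        exact fun x => Finset.mem_image_of_mem _ hh
    _ = ∏ x, ∑ k ∈ u.image fun h => h x, g x k := (Finset.prod_univ_sum _ _).symm
    _ ≤ ∏ x, ∑' k, g x k := by
        refine Finset.prod_le_prod (fun x _ => Finset.sum_nonneg fun k _ => h0 x k) fun x _ => ?_
        exact (hg x).sum_le_tsum _ fun k _ => h0 x k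

/-- one site: Gaussian sums -/
theorem summable_gauss {a : ℝ} (ha : 0 < a) (t : ℝ) :
    Summable fun k : ℤ => Real.exp (-(a * ((k : ℝ) - t) ^ 2)) := by
  have hlt : Real.exp (-(a / 2)) < 1 := Real.exp_lt_one_iff.2 (by linarith)
  have h1 : Summable fun k : ℤ => Real.exp (-(a / 2)) ^ (k.natAbs) := by
    refine Summable.of_nat_of_neg ?_ ?_
    · simpa using summable_geometric_of_lt_one (Real.exp_pos _).le hlt
    · simpa using summable_geometric_of_lt_one (Real.exp_pos _).le hlt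
  refine Summable.of_nonneg_of_le (fun k => (Real.exp_pos _).le) (fun k => ?_)
    (h1.mul_left (Real.exp (a * (t ^ 2))))
  rw [← Real.exp_nat_mul, ← Real.exp_add]
  refine Real.exp_le_exp.2 ?_
  have hk : ((k.natAbs : ℕ) : ℝ) ≤ (k : ℝ) ^ 2 := by
    have h3 : ((k.natAbs : ℕ) : ℝ) ≤ ((k.natAbs : ℕ) : ℝ) ^ 2 := by
      have := Nat.le_self_pow (n := 2) (by norm_num) k.natAbs
      exact_mod_cast this
    have h4 : ((k.natAbs : ℕ) : ℝ) ^ 2 = (k : ℝ) ^ 2 := by
      rw [Nat.cast_natAbs, Int.cast_abs, sq_abs]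
    linarith
  nlinarith [mul_nonneg ha.le (sq_nonneg ((k : ℝ) - 2 * t)), hk, ha, sq_nonneg ((k : ℝ) - 2 * t)]

end summ

section model

variable {V : Type*} [Fintype V]

/-- the mass term in a complex background -/
noncomputable def gc (m : V → ℝ) (h : V → ℤ) (F : V → ℂ) : ℂ :=
  Complex.exp (-(∑ x, ((m x / 2 : ℝ) : ℂ) * ((h x : ℂ) - F x) ^ 2))

/-- the mass term in a real background -/
noncomputable def gr (m : V → ℝ) (h : V → ℤ) (f : V → ℝ) : ℝ :=
  Real.exp (-(∑ x, m x / 2 * ((h x : ℝ) - f x) ^ 2))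

/-- partition function in the real background `f` -/
noncomputable def Zr (w : (V → ℤ) → ℝ) (m : V → ℝ) (f : V → ℝ) : ℝ := ∑' h, w h * gr m h f

/-- mean in the real background `f` -/
noncomputable def Ex (w : (V → ℤ) → ℝ) (m : V → ℝ) (f : V → ℝ) (Y : (V → ℤ) → ℝ) : ℝ :=
  (∑' h, w h * gr m h f * Y h) / Zr w m f

/-- partition function on the complex line `f + z χ` -/
noncomputable def Zl (w : (V → ℤ) → ℝ) (m : V → ℝ) (f χ : V → ℝ) (z : ℂ) : ℂ :=
  ∑' h, (w h : ℂ) * gc m h fun x => (f x : ℂ) + z * (χ x : ℂ)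

/-- the linear functional -/
def lin (m χ : V → ℝ) (h : V → ℤ) : ℝ := ∑ x, m x * χ x * (h x : ℝ)

lemma gr_pos (m : V → ℝ) (h : V → ℤ) (f : V → ℝ) : 0 < gr m h f := Real.exp_pos _

lemma norm_gc (m : V → ℝ) (h : V → ℤ) (f χ : V → ℝ) (z : ℂ) :
    ‖gc m h fun x => (f x : ℂ) + z * (χ x : ℂ)‖ =
      gr m h (fun x => f x + z.re * χ x) * Real.exp (z.im ^ 2 * ∑ x, m x / 2 * χ x ^ 2) := by
  unfold gc gr
  rw [Complex.norm_exp, ← Real.exp_add]
  congr 1
  rw [Complex.neg_re, Complex.re_sum, Finset.mul_sum, ← Finset.sum_neg_distrib,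
    ← Finset.sum_neg_distrib, ← Finset.sum_add_distrib]
  refine Finset.sum_congr rfl fun x _ => ?_
  rw [Complex.re_ofReal_mul]
  have h1 : (((h x : ℂ) - ((f x : ℂ) + z * (χ x : ℂ))) ^ 2).re =
      ((h x : ℝ) - (f x + z.re * χ x)) ^ 2 - (z.im * χ x) ^ 2 := by
    simp [pow_two]
  rw [h1]
  ring

lemma gc_real (m : V → ℝ) (h : V → ℤ) (f χ : V → ℝ) (a : ℝ) :
    gc m h (fun x => (f x : ℂ) + (a : ℂ) * (χ x : ℂ)) =
      ((gr m h fun x => f x + a * χ x : ℝ) : ℂ) := by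
  unfold gc gr
  push_cast
  rfl

/-- a shift of the background costs at most a constant -/
lemma gr_shift (m : V → ℝ) (hm : ∀ x, 0 < m x) (h : V → ℤ) (f s : V → ℝ) {K : ℝ}
    (hs : ∀ x, s x ^ 2 ≤ K * K) :
    gr m h (fun x => f x + s x) ≤
      gr (fun x => m x / 2) h f * Real.exp (∑ x, m x / 2 * (K * K)) := by
  unfold gr
  rw [← Real.exp_add]
  refine Real.exp_le_exp.2 ?_
  rw [← Finset.sum_neg_distrib, ← Finset.sum_neg_distrib, ← Finset.sum_add_distrib]
  refine Finset.sum_le_sum fun x _ => ?_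
  have h1 : ((h x : ℝ) - f x) ^ 2 / 2 - s x ^ 2 ≤ ((h x : ℝ) - (f x + s x)) ^ 2 := by
    nlinarith [sq_nonneg ((h x : ℝ) - f x - 2 * s x)]
  have := hm x
  have := hs x
  nlinarith

variable {w : (V → ℤ) → ℝ} {m : V → ℝ} {Wb : ℝ}

section
variable [DecidableEq V]

set_option linter.unusedSectionVars false

lemma summable_gr (hm : ∀ x, 0 < m x) (f : V → ℝ) : Summable fun h : V → ℤ => gr m h f := by
  have h1 := summable_pi_prod (V := V) (g := fun x k => Real.exp (-(m x / 2 * ((k : ℝ) - f x) ^ 2)))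
    (fun x k => (Real.exp_pos _).le) fun x => summable_gauss (by have := hm x; positivity) (f x)
  refine h1.congr fun h => ?_
  unfold gr
  rw [← Real.exp_sum, Finset.sum_neg_distrib]

lemma summable_wgr (hm : ∀ x, 0 < m x) (hw0 : ∀ h, 0 ≤ w h) (hwb : ∀ h, w h ≤ Wb) (f : V → ℝ) :
    Summable fun h : V → ℤ => w h * gr m h f :=
  Summable.of_nonneg_of_le (fun h => mul_nonneg (hw0 h) (gr_pos _ _ _).le)
    (fun h => mul_le_mul_of_nonneg_right (hwb h) (gr_pos _ _ _).le)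
    ((summable_gr hm f).mul_left Wb)

/-- the quadratic form of the mass term -/
noncomputable def qf (m : V → ℝ) (f : V → ℝ) (h : V → ℤ) : ℝ := ∑ x, m x * ((h x : ℝ) - f x) ^ 2

lemma qf_nonneg (hm : ∀ x, 0 < m x) (f : V → ℝ) (h : V → ℤ) : 0 ≤ qf m f h :=
  Finset.sum_nonneg fun x _ => mul_nonneg (hm x).le (sq_nonneg _)

lemma gr_qf (m f : V → ℝ) (h : V → ℤ) : gr m h f = Real.exp (-(qf m f h / 2)) := by
  unfold gr qf
  rw [Finset.sum_div]
  congr 2
  exact Finset.sum_congr rfl fun x _ => by ring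

lemma gr_half (m f : V → ℝ) (h : V → ℤ) :
    gr (fun x => m x / 2) h f = Real.exp (-(qf m f h / 4)) := by
  unfold gr qf
  rw [Finset.sum_div]
  congr 2
  exact Finset.sum_congr rfl fun x _ => by ring

/-- quadratic moments are summable -/
lemma summable_mom (hm : ∀ x, 0 < m x) (hw0 : ∀ h, 0 ≤ w h) (hwb : ∀ h, w h ≤ Wb) (f : V → ℝ)
    {Y : (V → ℤ) → ℝ} {A : ℝ} (hY : ∀ h, |Y h| ≤ A * (1 + qf m f h)) :
    Summable fun h : V → ℤ => w h * gr m h f * Y h := by
  have h1 : Summable fun h : V → ℤ => 5 * A * (w h * gr (fun x => m x / 2) h f) :=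
    (summable_wgr (fun x => by have := hm x; positivity) hw0 hwb f).mul_left _
  refine Summable.of_norm_bounded h1 fun h => ?_
  have hq := qf_nonneg hm f h
  rw [Real.norm_eq_abs, abs_mul, abs_mul, abs_of_nonneg (hw0 h), abs_of_pos (gr_pos _ _ _)]
  have hA : 0 ≤ A * (1 + qf m f h) := (abs_nonneg _).trans (hY h)
  have hA0 : 0 ≤ A := by
    by_contra hneg
    push Not at hneg
    nlinarith
  have h2 : gr m h f * (1 + qf m f h) ≤ 5 * gr (fun x => m x / 2) h f := by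
    rw [gr_qf, gr_half]
    have e1 : Real.exp (-(qf m f h / 2)) =
        Real.exp (-(qf m f h / 4)) * Real.exp (-(qf m f h / 4)) := by
      rw [← Real.exp_add]
      ring_nf
    have e2 : Real.exp (-(qf m f h / 4)) * (1 + qf m f h) ≤ 5 := by
      have e3 : 1 + qf m f h ≤ 5 * Real.exp (qf m f h / 4) := by
        have := Real.add_one_le_exp (qf m f h / 4)
        nlinarith
      calc Real.exp (-(qf m f h / 4)) * (1 + qf m f h)
          ≤ Real.exp (-(qf m f h / 4)) * (5 * Real.exp (qf m f h / 4)) :=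
            mul_le_mul_of_nonneg_left e3 (Real.exp_pos _).le
        _ = 5 * (Real.exp (-(qf m f h / 4)) * Real.exp (qf m f h / 4)) := by ring
        _ = 5 := by rw [← Real.exp_add]; simp
    rw [e1, mul_assoc]
    have := (Real.exp_pos (-(qf m f h / 4))).le
    nlinarith
  calc w h * gr m h f * |Y h| ≤ w h * gr m h f * (A * (1 + qf m f h)) :=
        mul_le_mul_of_nonneg_left (hY h) (mul_nonneg (hw0 h) (gr_pos _ _ _).le)
    _ = w h * A * (gr m h f * (1 + qf m f h)) := by ring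
    _ ≤ w h * A * (5 * gr (fun x => m x / 2) h f) :=
        mul_le_mul_of_nonneg_left h2 (mul_nonneg (hw0 h) hA0)
    _ = 5 * A * (w h * gr (fun x => m x / 2) h f) := by ring

lemma lin_sub_sq_le (hm : ∀ x, 0 < m x) (χ f : V → ℝ) (h : V → ℤ) :
    (∑ x, m x * χ x * ((h x : ℝ) - f x)) ^ 2 ≤ (∑ x, m x * χ x ^ 2) * qf m f h := by
  unfold qf
  have h1 := Finset.sum_mul_sq_le_sq_mul_sq Finset.univ (fun x => Real.sqrt (m x) * χ x)
    fun x => Real.sqrt (m x) * ((h x : ℝ) - f x)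
  have e1 : ∀ x, Real.sqrt (m x) * χ x * (Real.sqrt (m x) * ((h x : ℝ) - f x)) =
      m x * χ x * ((h x : ℝ) - f x) := by
    intro x
    have := Real.mul_self_sqrt (hm x).le
    calc _ = (Real.sqrt (m x) * Real.sqrt (m x)) * χ x * ((h x : ℝ) - f x) := by ring
      _ = _ := by rw [this]
  have e2 : ∀ x, (Real.sqrt (m x) * χ x) ^ 2 = m x * χ x ^ 2 := by
    intro x
    rw [mul_pow, Real.sq_sqrt (hm x).le]
  have e3 : ∀ x, (Real.sqrt (m x) * ((h x : ℝ) - f x)) ^ 2 = m x * ((h x : ℝ) - f x) ^ 2 := by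
    intro x
    rw [mul_pow, Real.sq_sqrt (hm x).le]
  simpa only [e1, e2, e3] using h1

lemma lin_eq (m χ f : V → ℝ) (h : V → ℤ) :
    lin m χ h = ∑ x, m x * χ x * ((h x : ℝ) - f x) + ∑ x, m x * χ x * f x := by
  unfold lin
  rw [← Finset.sum_add_distrib]
  exact Finset.sum_congr rfl fun x _ => by ring

lemma summable_lin (hm : ∀ x, 0 < m x) (hw0 : ∀ h, 0 ≤ w h) (hwb : ∀ h, w h ≤ Wb) (f χ : V → ℝ)
    (c : ℝ) : Summable fun h : V → ℤ => w h * gr m h f * (lin m χ h - c) ^ 2 := by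
  set S : ℝ := ∑ x, m x * χ x ^ 2 with hS
  have hS0 : 0 ≤ S := Finset.sum_nonneg fun x _ => mul_nonneg (hm x).le (sq_nonneg _)
  set d : ℝ := ∑ x, m x * χ x * f x - c with hd
  refine summable_mom hm hw0 hwb f (A := 2 * S + 2 * d ^ 2) fun h => ?_
  have hq := qf_nonneg hm f h
  have h1 := lin_sub_sq_le hm χ f h
  rw [abs_of_nonneg (sq_nonneg _), lin_eq m χ f h]
  have e : (∑ x, m x * χ x * ((h x : ℝ) - f x) + ∑ x, m x * χ x * f x - c) =
      (∑ x, m x * χ x * ((h x : ℝ) - f x)) + d := by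
    rw [hd]
    ring
  rw [e]
  have hSq : 0 ≤ S * qf m f h := mul_nonneg hS0 hq
  have hdq : 0 ≤ d ^ 2 * qf m f h := mul_nonneg (sq_nonneg _) hq
  nlinarith [sq_nonneg ((∑ x, m x * χ x * ((h x : ℝ) - f x)) - d), sq_nonneg d]

lemma summable_lin1 (hm : ∀ x, 0 < m x) (hw0 : ∀ h, 0 ≤ w h) (hwb : ∀ h, w h ≤ Wb) (f χ : V → ℝ) :
    Summable fun h : V → ℤ => w h * gr m h f * lin m χ h := by
  have h1 := summable_lin hm hw0 hwb f χ (-1)
  have h2 := summable_lin hm hw0 hwb f χ 0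
  have h3 := summable_wgr hm hw0 hwb f
  refine ((h1.sub h2).sub h3).mul_left (1 / 2) |>.congr fun h => ?_
  ring

/-- variance of the linear functional -/
noncomputable def Vr (w : (V → ℤ) → ℝ) (m f χ : V → ℝ) : ℝ :=
  Ex w m f (fun h => lin m χ h ^ 2) - Ex w m f (lin m χ) ^ 2

lemma tsum_center (hm : ∀ x, 0 < m x) (hw0 : ∀ h, 0 ≤ w h) (hwb : ∀ h, w h ≤ Wb) (f χ : V → ℝ)
    (hZ : 0 < Zr w m f) :
    ∑' h, w h * gr m h f * (lin m χ h - Ex w m f (lin m χ)) ^ 2 = Vr w m f χ * Zr w m f := by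
  have h1 := summable_lin hm hw0 hwb f χ 0
  have h2 := summable_lin1 hm hw0 hwb f χ
  have h3 := summable_wgr hm hw0 hwb f
  set μ := Ex w m f (lin m χ) with hμ
  have e1 : ∀ h, w h * gr m h f * (lin m χ h - μ) ^ 2 =
      w h * gr m h f * (lin m χ h - 0) ^ 2 - 2 * μ * (w h * gr m h f * lin m χ h) +
        μ ^ 2 * (w h * gr m h f) := fun h => by ring
  simp only [e1]
  rw [((h1.sub (h2.mul_left _)).tsum_add (h3.mul_left _)), h1.tsum_sub (h2.mul_left _),
    tsum_mul_left, tsum_mul_left]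
  have e2 : (∑' h, w h * gr m h f * lin m χ h) = μ * Zr w m f := by
    rw [hμ]
    unfold Ex
    field_simp
  have e3 : (∑' h, w h * gr m h f * (lin m χ h - 0) ^ 2) =
      Ex w m f (fun h => lin m χ h ^ 2) * Zr w m f := by
    unfold Ex
    simp only [sub_zero]
    field_simp
  have e4 : (∑' h, w h * gr m h f) = Zr w m f := rfl
  rw [e2, e3, e4]
  unfold Vr
  rw [← hμ]
  ring

/-! ### the complex line -/

lemma differentiable_gc (m : V → ℝ) (h : V → ℤ) (f χ : V → ℝ) (z : ℂ) :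
    HasDerivAt (fun z : ℂ => gc m h fun x => (f x : ℂ) + z * (χ x : ℂ))
      ((gc m h fun x => (f x : ℂ) + z * (χ x : ℂ)) *
        ∑ x, (m x : ℂ) * (χ x : ℂ) * ((h x : ℂ) - ((f x : ℂ) + z * (χ x : ℂ)))) z := by
  unfold gc
  have h1 : HasDerivAt (fun z : ℂ => -(∑ x, ((m x / 2 : ℝ) : ℂ) *
      ((h x : ℂ) - ((f x : ℂ) + z * (χ x : ℂ))) ^ 2))
      (∑ x, (m x : ℂ) * (χ x : ℂ) * ((h x : ℂ) - ((f x : ℂ) + z * (χ x : ℂ)))) z := by
    have h2 : ∀ x ∈ (Finset.univ : Finset V), HasDerivAt (fun z : ℂ => ((m x / 2 : ℝ) : ℂ) *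
        ((h x : ℂ) - ((f x : ℂ) + z * (χ x : ℂ))) ^ 2)
        (-((m x : ℂ) * (χ x : ℂ) * ((h x : ℂ) - ((f x : ℂ) + z * (χ x : ℂ))))) z := by
      intro x _
      have h3 : HasDerivAt (fun z : ℂ => (h x : ℂ) - ((f x : ℂ) + z * (χ x : ℂ))) (-(χ x : ℂ)) z := by
        have := (((hasDerivAt_id z).mul_const (χ x : ℂ)).const_add (f x : ℂ)).const_sub (h x : ℂ)
        simpa using this
      have h4 := (h3.pow 2).const_mul ((m x / 2 : ℝ) : ℂ)
      refine h4.congr_deriv ?_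
      push_cast
      ring
    have h5 := (HasDerivAt.fun_sum h2).neg
    refine h5.congr_deriv ?_
    rw [Finset.sum_neg_distrib, neg_neg]
  have := h1.cexp
  exact this

/-- uniform bound on a ball -/
lemma bound_gc (hm : ∀ x, 0 < m x) (hw0 : ∀ h, 0 ≤ w h) (hwb : ∀ h, w h ≤ Wb) (f χ : V → ℝ)
    (K : ℝ) : ∃ u : (V → ℤ) → ℝ, Summable u ∧ ∀ h, ∀ z ∈ ball (0 : ℂ) K,
      ‖(w h : ℂ) * gc m h fun x => (f x : ℂ) + z * (χ x : ℂ)‖ ≤ u h := by
  set B : ℝ := ∑ x, |χ x| with hB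
  have hB0 : 0 ≤ B := Finset.sum_nonneg fun x _ => abs_nonneg _
  refine ⟨fun h => (w h * gr (fun x => m x / 2) h f) *
    (Real.exp (∑ x, m x / 2 * ((|K| * B) * (|K| * B))) *
      Real.exp (K ^ 2 * ∑ x, m x / 2 * χ x ^ 2)), ?_, ?_⟩
  · exact (summable_wgr (fun x => by have := hm x; positivity) hw0 hwb f).mul_right _
  intro h z hz
  have hzK : ‖z‖ < K := by simpa using hz
  have hK0 : 0 < K := lt_of_le_of_lt (norm_nonneg _) hzK
  rw [norm_mul, norm_gc, Complex.norm_real, Real.norm_eq_abs, abs_of_nonneg (hw0 h)]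
  have h1 : gr m h (fun x => f x + z.re * χ x) ≤
      gr (fun x => m x / 2) h f * Real.exp (∑ x, m x / 2 * ((|K| * B) * (|K| * B))) := by
    refine gr_shift m hm h f (fun x => z.re * χ x) fun x => ?_
    have h2 : |z.re * χ x| ≤ |K| * B := by
      rw [abs_mul]
      refine mul_le_mul ((Complex.abs_re_le_norm z).trans (hzK.le.trans (le_abs_self K))) ?_
        (abs_nonneg _) (abs_nonneg _)
      exact Finset.single_le_sum (f := fun x => |χ x|) (fun x _ => abs_nonneg _)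
        (Finset.mem_univ x)
    calc (z.re * χ x) ^ 2 = |z.re * χ x| * |z.re * χ x| := by rw [abs_mul_abs_self]; ring
      _ ≤ (|K| * B) * (|K| * B) :=
        mul_le_mul h2 h2 (abs_nonneg _) (mul_nonneg (abs_nonneg _) hB0)
  have h2 : Real.exp (z.im ^ 2 * ∑ x, m x / 2 * χ x ^ 2) ≤
      Real.exp (K ^ 2 * ∑ x, m x / 2 * χ x ^ 2) := by
    refine Real.exp_le_exp.2 (mul_le_mul_of_nonneg_right ?_ ?_)
    · have h3 : |z.im| ≤ K := (Complex.abs_im_le_norm z).trans hzK.le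
      rw [← sq_abs z.im]
      exact pow_le_pow_left₀ (abs_nonneg _) h3 2
    · exact Finset.sum_nonneg fun x _ => mul_nonneg (half_pos (hm x)).le (sq_nonneg _)
  calc w h * (gr m h (fun x => f x + z.re * χ x) * Real.exp (z.im ^ 2 * ∑ x, m x / 2 * χ x ^ 2))
      ≤ w h * ((gr (fun x => m x / 2) h f * Real.exp (∑ x, m x / 2 * ((|K| * B) * (|K| * B)))) *
        Real.exp (K ^ 2 * ∑ x, m x / 2 * χ x ^ 2)) := by
        refine mul_le_mul_of_nonneg_left ?_ (hw0 h)
        exact mul_le_mul h1 h2 (Real.exp_pos _).le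
          (mul_nonneg (gr_pos _ _ _).le (Real.exp_pos _).le)
    _ = _ := by ring

lemma summable_gc (hm : ∀ x, 0 < m x) (hw0 : ∀ h, 0 ≤ w h) (hwb : ∀ h, w h ≤ Wb) (f χ : V → ℝ)
    (z : ℂ) : Summable fun h => (w h : ℂ) * gc m h fun x => (f x : ℂ) + z * (χ x : ℂ) := by
  obtain ⟨u, hu, hb⟩ := bound_gc (w := w) hm hw0 hwb f χ (‖z‖ + 1)
  exact Summable.of_norm_bounded hu fun h => hb h z (by simp)

lemma differentiable_Zl (hm : ∀ x, 0 < m x) (hw0 : ∀ h, 0 ≤ w h) (hwb : ∀ h, w h ≤ Wb)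
    (f χ : V → ℝ) : Differentiable ℂ (Zl w m f χ) := by
  intro z
  obtain ⟨u, hu, hb⟩ := bound_gc (w := w) hm hw0 hwb f χ (‖z‖ + 1)
  have h1 : DifferentiableOn ℂ (fun z => ∑' h, (w h : ℂ) *
      gc m h fun x => (f x : ℂ) + z * (χ x : ℂ)) (ball 0 (‖z‖ + 1)) := by
    refine differentiableOn_tsum_of_summable_norm hu (fun h => ?_) isOpen_ball fun h z hz => hb h z hz
    exact fun z _ => ((differentiable_gc m h f χ z).differentiableAt.const_mul
      (w h : ℂ)).differentiableWithinAt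
  exact (h1 z (by simp)).differentiableAt (isOpen_ball.mem_nhds (by simp))

lemma deriv_Zl (hm : ∀ x, 0 < m x) (hw0 : ∀ h, 0 ≤ w h) (hwb : ∀ h, w h ≤ Wb)
    (f χ : V → ℝ) (hZ : 0 < Zr w m f) : deriv (Zl w m f χ) 0 =
      (((Ex w m f (lin m χ) - ∑ x, m x * χ x * f x) * Zr w m f : ℝ) : ℂ) := by
  obtain ⟨u, hu, hb⟩ := bound_gc (w := w) hm hw0 hwb f χ 1
  have h1 := hasSum_deriv_of_summable_norm (F := fun h z => (w h : ℂ) *
      gc m h fun x => (f x : ℂ) + z * (χ x : ℂ)) hu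
      (fun h z _ => ((differentiable_gc m h f χ z).differentiableAt.const_mul
        (w h : ℂ)).differentiableWithinAt) isOpen_ball (fun h z hz => hb h z hz)
      (z := 0) (by simp)
  have h2 : ∀ h, deriv (fun z => (w h : ℂ) * gc m h fun x => (f x : ℂ) + z * (χ x : ℂ)) 0 =
      ((w h * gr m h f * (lin m χ h - ∑ x, m x * χ x * f x) : ℝ) : ℂ) := by
    intro h
    rw [((differentiable_gc m h f χ 0).const_mul (w h : ℂ)).deriv]
    have e0 := gc_real m h f χ 0
    simp only [Complex.ofReal_zero, zero_mul, add_zero] at e0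
    simp only [zero_mul, add_zero]
    rw [e0]
    push_cast
    rw [lin_eq m χ f h]
    push_cast
    rw [add_sub_cancel_right]
    ring
  simp only [h2] at h1
  have h3 : deriv (Zl w m f χ) 0 =
      ∑' h, ((w h * gr m h f * (lin m χ h - ∑ x, m x * χ x * f x) : ℝ) : ℂ) := h1.tsum_eq.symm
  rw [h3, ← Complex.ofReal_tsum]
  congr 1
  have s1 := summable_lin1 hm hw0 hwb f χ
  have s2 := summable_wgr hm hw0 hwb f
  have e1 : ∀ h, w h * gr m h f * (lin m χ h - ∑ x, m x * χ x * f x) =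
      w h * gr m h f * lin m χ h - (∑ x, m x * χ x * f x) * (w h * gr m h f) := fun h => by ring
  simp only [e1]
  rw [s1.tsum_sub (s2.mul_left _), tsum_mul_left, sub_mul]
  have e2 : (∑' h, w h * gr m h f * lin m χ h) = Ex w m f (lin m χ) * Zr w m f := by
    unfold Ex
    field_simp
  rw [e2]
  rfl

lemma Zl_real (w : (V → ℤ) → ℝ) (m f χ : V → ℝ) (a : ℝ) :
    Zl w m f χ a = ((Zr w m fun x => f x + a * χ x : ℝ) : ℂ) := by
  unfold Zl Zr
  rw [Complex.ofReal_tsum]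
  refine tsum_congr fun h => ?_
  rw [gc_real]
  push_cast
  rfl

/-- upper bound on the complex line -/
lemma norm_Zl_le (hm : ∀ x, 0 < m x) (hw0 : ∀ h, 0 ≤ w h) (hwb : ∀ h, w h ≤ Wb) (f χ : V → ℝ)
    (z : ℂ) : ‖Zl w m f χ z‖ ≤
      Real.exp (z.im ^ 2 * ∑ x, m x / 2 * χ x ^ 2) * Zr w m fun x => f x + z.re * χ x := by
  unfold Zl Zr
  rw [← tsum_mul_left]
  have hs := (summable_wgr (w := w) hm hw0 hwb fun x => f x + z.re * χ x).mul_left
    (Real.exp (z.im ^ 2 * ∑ x, m x / 2 * χ x ^ 2))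
  refine tsum_of_norm_bounded hs.hasSum fun h => ?_
  rw [norm_mul, norm_gc, Complex.norm_real, Real.norm_eq_abs, abs_of_nonneg (hw0 h)]
  exact le_of_eq (by ring)

/-- factorisation on the complex line -/
lemma gc_factor (m : V → ℝ) (h : V → ℤ) (f χ : V → ℝ) (z : ℂ) (μ : ℝ) :
    (gc m h fun x => (f x : ℂ) + z * (χ x : ℂ)) =
      Complex.exp (z.im ^ 2 * ((∑ x, m x / 2 * χ x ^ 2 : ℝ) : ℂ) +
        Complex.I * z.im * ((μ - ∑ x, m x * χ x * (f x + z.re * χ x) : ℝ) : ℂ)) *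
      (((gr m h fun x => f x + z.re * χ x) : ℝ) : ℂ) *
        Complex.exp (((z.im * (lin m χ h - μ) : ℝ) : ℂ) * Complex.I) := by
  unfold gc gr
  rw [Complex.ofReal_exp, ← Complex.exp_add, ← Complex.exp_add]
  congr 1
  have hz : z = (z.re : ℂ) + (z.im : ℂ) * Complex.I := (Complex.re_add_im z).symm
  set a := z.re with ha
  set b := z.im with hb
  rw [hz]
  unfold lin
  push_cast
  simp only [Finset.mul_sum, mul_sub, sub_mul, Finset.sum_mul, ← Finset.sum_neg_distrib]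
  have key : ∀ x, -((m x : ℂ) / 2 * ((h x : ℂ) - ((f x : ℂ) + (a + b * Complex.I) * χ x)) ^ 2) =
      (b : ℂ) ^ 2 * (m x / 2 * (χ x : ℂ) ^ 2) -
        Complex.I * b * (m x * χ x * (f x + a * χ x)) +
        -((m x : ℂ) / 2 * ((h x : ℂ) - (f x + a * χ x)) ^ 2) +
        (b : ℂ) * (m x * χ x * (h x : ℂ)) * Complex.I := by
    intro x
    have hI : Complex.I ^ 2 = -1 := Complex.I_sq
    linear_combination (-(m x : ℂ) / 2 * (b * χ x) ^ 2) * hI
  rw [Finset.sum_congr rfl fun x _ => key x]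
  simp only [Finset.sum_add_distrib, Finset.sum_sub_distrib]
  ring

/-- lower bound on the complex line -/
lemma le_norm_Zl (hm : ∀ x, 0 < m x) (hw0 : ∀ h, 0 ≤ w h) (hwb : ∀ h, w h ≤ Wb) (f χ : V → ℝ)
    (z : ℂ) (hZ : 0 < Zr w m fun x => f x + z.re * χ x) :
    Real.exp (z.im ^ 2 * ∑ x, m x / 2 * χ x ^ 2) *
      ((1 - z.im ^ 2 / 2 * Vr w m (fun x => f x + z.re * χ x) χ) *
        Zr w m fun x => f x + z.re * χ x) ≤ ‖Zl w m f χ z‖ := by
  set g : V → ℝ := fun x => f x + z.re * χ x with hg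
  set μ := Ex w m g (lin m χ) with hμ
  set P : ℂ := Complex.exp (z.im ^ 2 * ((∑ x, m x / 2 * χ x ^ 2 : ℝ) : ℂ) +
        Complex.I * z.im * ((μ - ∑ x, m x * χ x * (f x + z.re * χ x) : ℝ) : ℂ)) with hP
  have hPn : ‖P‖ = Real.exp (z.im ^ 2 * ∑ x, m x / 2 * χ x ^ 2) := by
    rw [hP, Complex.norm_exp]
    congr 1
    simp [← Complex.ofReal_pow]
  have h1 : Zl w m f χ z = P * ∑' h, ((w h * gr m h g : ℝ) : ℂ) *
      Complex.exp (((z.im * (lin m χ h - μ) : ℝ) : ℂ) * Complex.I) := by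
    unfold Zl
    rw [← tsum_mul_left]
    refine tsum_congr fun h => ?_
    have h2 := gc_factor m h f χ z μ
    rw [← hP, ← hg] at h2
    rw [h2]
    push_cast
    ring
  rw [h1, norm_mul, hPn]
  refine mul_le_mul_of_nonneg_left ?_ (Real.exp_pos _).le
  have s0 := summable_wgr (w := w) hm hw0 hwb g
  have s1 : Summable fun h => ((w h * gr m h g : ℝ) : ℂ) *
      Complex.exp (((z.im * (lin m χ h - μ) : ℝ) : ℂ) * Complex.I) := by
    refine Summable.of_norm_bounded s0 fun h => ?_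
    rw [norm_mul, Complex.norm_exp_ofReal_mul_I, mul_one, Complex.norm_real, Real.norm_eq_abs,
      abs_of_nonneg (mul_nonneg (hw0 h) (gr_pos _ _ _).le)]
  have s2 := summable_lin (w := w) hm hw0 hwb g χ μ
  have h2 : (∑' h, ((w h * gr m h g : ℝ) : ℂ) *
      Complex.exp (((z.im * (lin m χ h - μ) : ℝ) : ℂ) * Complex.I)).re =
      ∑' h, w h * gr m h g * Real.cos (z.im * (lin m χ h - μ)) := by
    rw [Complex.re_tsum s1]
    refine tsum_congr fun h => ?_
    rw [Complex.re_ofReal_mul, Complex.exp_ofReal_mul_I_re]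
  have s3 : Summable fun h => w h * gr m h g * Real.cos (z.im * (lin m χ h - μ)) := by
    refine Summable.of_norm_bounded s0 fun h => ?_
    rw [norm_mul, Real.norm_eq_abs, Real.norm_eq_abs,
      abs_of_nonneg (mul_nonneg (hw0 h) (gr_pos _ _ _).le)]
    exact mul_le_of_le_one_right (mul_nonneg (hw0 h) (gr_pos _ _ _).le) (Real.abs_cos_le_one _)
  calc (1 - z.im ^ 2 / 2 * Vr w m g χ) * Zr w m g
      = ∑' h, (w h * gr m h g - z.im ^ 2 / 2 * (w h * gr m h g * (lin m χ h - μ) ^ 2)) := by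
        rw [s0.tsum_sub (s2.mul_left _), tsum_mul_left, hμ, tsum_center hm hw0 hwb g χ hZ]
        unfold Zr
        ring
    _ ≤ ∑' h, w h * gr m h g * Real.cos (z.im * (lin m χ h - μ)) := by
        refine (s0.sub (s2.mul_left _)).tsum_le_tsum (fun h => ?_) s3
        have hc := Real.one_sub_sq_div_two_le_cos (x := z.im * (lin m χ h - μ))
        have := mul_le_mul_of_nonneg_left hc (mul_nonneg (hw0 h) (gr_pos m h g).le)
        nlinarith
    _ ≤ _ := by
        rw [← h2]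
        exact Complex.re_le_norm _

lemma Zr_pos (hm : ∀ x, 0 < m x) (hw0 : ∀ h, 0 ≤ w h) (hwb : ∀ h, w h ≤ Wb) {h0 : V → ℤ}
    (hp : 0 < w h0) (f : V → ℝ) : 0 < Zr w m f :=
  (summable_wgr hm hw0 hwb f).tsum_pos (fun h => mul_nonneg (hw0 h) (gr_pos _ _ _).le) h0
    (mul_pos hp (gr_pos _ _ _))

/-- **The analytic core of step C3.** If the response of the partition function to the constant
`c` changes by at most `δ` along the real line `f + t χ`, `|t| ≤ r`, then the mean of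
`∑ m χ h` at `f + c` is that at `f`, shifted by `c`, up to `e² (1 + log (5 / δ)) δ / ρ`. -/
theorem c3_core (hm : ∀ x, 0 < m x) (hw0 : ∀ h, 0 ≤ w h) (hwb : ∀ h, w h ≤ Wb)
    (hZ : ∀ f : V → ℝ, 0 < Zr w m f) {f χ : V → ℝ} {c r ρ δ : ℝ} (hρ : 0 < ρ) (hr : 2 * ρ ≤ r)
    (hδ : 0 < δ) (hδ1 : δ ≤ 1)
    (hvar : ∀ t : ℝ, |t| ≤ r → ρ ^ 2 * Vr w m (fun x => f x + t * χ x) χ ≤ 1)
    (hW : ∀ t : ℝ, |t| ≤ r → |Zr w m (fun x => f x + c + t * χ x) * Zr w m f /
      (Zr w m (fun x => f x + t * χ x) * Zr w m fun x => f x + c) - 1| ≤ δ) :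
    |Ex w m (fun x => f x + c) (lin m χ) - Ex w m f (lin m χ) - c * ∑ x, m x * χ x| ≤
      Real.exp 2 * (1 + Real.log (5 / δ)) * δ / ρ := by
  set fc : V → ℝ := fun x => f x + c with hfc
  set G : ℂ → ℂ := fun z => Zl w m fc χ z * (Zr w m f : ℂ) /
    (Zl w m f χ z * (Zr w m fc : ℂ)) - 1 with hG
  have hZf := hZ f
  have hZc := hZ fc
  -- lower bound
  have hlow : ∀ z : ℂ, |z.re| ≤ r → |z.im| ≤ ρ →
      Real.exp (z.im ^ 2 * ∑ x, m x / 2 * χ x ^ 2) * (1 / 2 * Zr w m fun x => f x + z.re * χ x) ≤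
        ‖Zl w m f χ z‖ := by
    intro z h1 h2
    refine le_trans ?_ (le_norm_Zl hm hw0 hwb f χ z (hZ _))
    refine mul_le_mul_of_nonneg_left (mul_le_mul_of_nonneg_right ?_ (hZ _).le) (Real.exp_pos _).le
    have h3 := hvar z.re h1
    have h4 : z.im ^ 2 ≤ ρ ^ 2 := by
      rw [← sq_abs z.im]
      exact pow_le_pow_left₀ (abs_nonneg _) h2 2
    rcases le_or_gt 0 (Vr w m (fun x => f x + z.re * χ x) χ) with h5 | h5
    · have : z.im ^ 2 * Vr w m (fun x => f x + z.re * χ x) χ ≤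
          ρ ^ 2 * Vr w m (fun x => f x + z.re * χ x) χ := mul_le_mul_of_nonneg_right h4 h5
      linarith
    · have : z.im ^ 2 * Vr w m (fun x => f x + z.re * χ x) χ ≤ 0 :=
        mul_nonpos_of_nonneg_of_nonpos (sq_nonneg _) h5.le
      linarith
  have hne : ∀ z : ℂ, |z.re| ≤ r → |z.im| ≤ ρ → Zl w m f χ z ≠ 0 := by
    intro z h1 h2 h3
    have h4 := hlow z h1 h2
    rw [h3, norm_zero] at h4
    have h5 : 0 < Real.exp (z.im ^ 2 * ∑ x, m x / 2 * χ x ^ 2) *
        (1 / 2 * Zr w m fun x => f x + z.re * χ x) :=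
      mul_pos (Real.exp_pos _) (mul_pos (by norm_num) (hZ _))
    linarith
  have hZcC : (Zr w m fc : ℂ) ≠ 0 := by exact_mod_cast hZc.ne'
  have hZfC : (Zr w m f : ℂ) ≠ 0 := by exact_mod_cast hZf.ne'
  have hdG : ∀ z : ℂ, |z.re| ≤ r → |z.im| ≤ ρ → DifferentiableAt ℂ G z := by
    intro z h1 h2
    refine DifferentiableAt.sub_const ?_ _
    refine ((differentiable_Zl hm hw0 hwb fc χ z).mul_const _).div
      ((differentiable_Zl hm hw0 hwb f χ z).mul_const _) ?_
    exact mul_ne_zero (hne z h1 h2) hZcC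
  have hre : ∀ t : ℝ, G t = ((Zr w m (fun x => f x + c + t * χ x) * Zr w m f /
      (Zr w m (fun x => f x + t * χ x) * Zr w m fc) - 1 : ℝ) : ℂ) := by
    intro t
    rw [hG]
    simp only [Zl_real]
    push_cast
    rfl
  have hbd : ∀ z : ℂ, |z.re| ≤ r → |z.im| ≤ ρ → ‖G z‖ ≤ 5 := by
    intro z h1 h2
    have hE := Real.exp_pos (z.im ^ 2 * ∑ x, m x / 2 * χ x ^ 2)
    set e := Real.exp (z.im ^ 2 * ∑ x, m x / 2 * χ x ^ 2) with he
    have hA := norm_Zl_le hm hw0 hwb fc χ z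
    have hB := hlow z h1 h2
    rw [← he] at hA hB
    have hZg : 0 < Zr w m fun x => f x + z.re * χ x := hZ _
    have hBp : 0 < e * (1 / 2 * Zr w m fun x => f x + z.re * χ x) :=
      mul_pos hE (mul_pos (by norm_num) hZg)
    have h3 : ‖Zl w m fc χ z * (Zr w m f : ℂ) / (Zl w m f χ z * (Zr w m fc : ℂ))‖ ≤ 4 := by
      rw [norm_div, norm_mul, norm_mul, Complex.norm_real, Complex.norm_real, Real.norm_eq_abs,
        Real.norm_eq_abs, abs_of_pos hZf, abs_of_pos hZc]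
      have h4 := (abs_le.1 (hW z.re h1)).2
      have h5 : (Zr w m fun x => f x + c + z.re * χ x) * Zr w m f /
          ((Zr w m fun x => f x + z.re * χ x) * Zr w m fc) ≤ 2 := by linarith
      rw [div_le_iff₀ (mul_pos hZg hZc)] at h5
      rw [div_le_iff₀ (mul_pos (lt_of_lt_of_le hBp hB) hZc)]
      calc ‖Zl w m fc χ z‖ * Zr w m f
          ≤ (e * Zr w m fun x => fc x + z.re * χ x) * Zr w m f :=
            mul_le_mul_of_nonneg_right hA hZf.le
        _ = e * ((Zr w m fun x => f x + c + z.re * χ x) * Zr w m f) := by rw [mul_assoc]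
        _ ≤ e * (2 * ((Zr w m fun x => f x + z.re * χ x) * Zr w m fc)) :=
            mul_le_mul_of_nonneg_left h5 hE.le
        _ = 4 * ((e * (1 / 2 * Zr w m fun x => f x + z.re * χ x)) * Zr w m fc) := by ring
        _ ≤ 4 * (‖Zl w m f χ z‖ * Zr w m fc) :=
            mul_le_mul_of_nonneg_left (mul_le_mul_of_nonneg_right hB hZc.le) (by norm_num)
    calc ‖G z‖ ≤ ‖Zl w m fc χ z * (Zr w m f : ℂ) / (Zl w m f χ z * (Zr w m fc : ℂ))‖ + ‖(1 : ℂ)‖ :=
          norm_sub_le _ _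
      _ ≤ 4 + 1 := add_le_add h3 (by simp)
      _ = 5 := by norm_num
  have hmain := two_const (f := G) hρ hr hδ (hδ1.trans (by norm_num : (1 : ℝ) ≤ 5))
    (fun z hz => (hdG z hz.1 hz.2).continuousAt.continuousWithinAt)
    (fun z hz => (hdG z hz.1.le hz.2.le).differentiableWithinAt) hbd
    (fun t ht => by
      rw [hre t, Complex.norm_real, Real.norm_eq_abs]
      exact hW t ht)
  refine le_trans (le_of_eq ?_) hmain
  -- the derivative
  have hA := (differentiable_Zl hm hw0 hwb fc χ 0).hasDerivAt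
  have hB := (differentiable_Zl hm hw0 hwb f χ 0).hasDerivAt
  rw [deriv_Zl hm hw0 hwb fc χ hZc] at hA
  rw [deriv_Zl hm hw0 hwb f χ hZf] at hB
  have hA0 : Zl w m fc χ 0 = (Zr w m fc : ℂ) := by
    have := Zl_real w m fc χ 0
    simpa using this
  have hB0 : Zl w m f χ 0 = (Zr w m f : ℂ) := by
    have := Zl_real w m f χ 0
    simpa using this
  have hn0 : Zl w m f χ 0 * (Zr w m fc : ℂ) ≠ 0 := by
    rw [hB0]
    exact mul_ne_zero hZfC hZcC
  have hGd := ((hA.mul_const (Zr w m f : ℂ)).div (hB.mul_const (Zr w m fc : ℂ)) hn0).sub_const 1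
  have hGe : deriv G 0 = (((Ex w m fc (lin m χ) - Ex w m f (lin m χ) -
      c * ∑ x, m x * χ x : ℝ)) : ℂ) := by
    have hGd' : HasDerivAt G _ 0 := hGd
    rw [hGd'.deriv, hA0, hB0]
    have e1 : ∑ x, m x * χ x * fc x = ∑ x, m x * χ x * f x + c * ∑ x, m x * χ x := by
      rw [Finset.mul_sum, ← Finset.sum_add_distrib]
      exact Finset.sum_congr rfl fun x _ => by rw [hfc]; ring
    rw [e1]
    push_cast
    field_simp
    ring
  rw [hGe, Complex.norm_real, Real.norm_eq_abs]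

end

end model

end Vale.Agent.P159.TM.H870
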