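import Vale.Agent.P159.TM.Spec.C
import Vale.Agent.P159.TM.H857.B4
import Vale.Agent.P159.TM.H22.Base
import Vale.Agent.P159.TM.H459.Tor
import Vale.Agent.P159.TM.H215.C3

/-!
# P159 : the structural hypotheses for the weight `SpecC.wT b N` of the torus

`wt_T, sup_T, shift_T, even_T, gin_T, trans_T`; `isNm_tn`; `Lp_lip` (nearest neighbours ⇒ `LipT`);
`kap_le` (from `QU`).
-/

set_option linter.unusedSectionVars false

open Finset

namespace Vale.Agent.P159.TM.H870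

open Vale.Agent.P159.H353 (wI wI_nonneg)
open Vale.Agent.P159.TM.SpecC Vale.Agent.P159.TM.H459 Vale.Agent.P159.TM.H859
  Vale.Agent.P159.TM.H215

section struct

variable {N : ℕ} [NeZero N] {b : ℝ}

theorem wT_eq (b : ℝ) (N : ℕ) [NeZero N] :
    wT b N = H857.Wg (tS (N := N)) tT (fun _ => b) := by
  funext h
  show wT b N h = ∏ e : (ZMod N × ZMod N) × Bool, wI b (h (tT e) - h (tS e))
  rw [Fintype.prod_prod_type]
  refine Finset.prod_congr rfl fun x _ => ?_
  rw [Fintype.prod_bool]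
  simp [tS, tT, dir]

theorem wt_T (hb : 0 ≤ b) : H871.Wt (wT b N) := by
  rw [wT_eq]
  exact H857.wt_Wg _ _ _ fun _ => hb

theorem sup_T (hb : 0 ≤ b) : H871.Sup (wT b N) := by
  rw [wT_eq]
  exact H857.sup_Wg _ _ _ fun _ => hb

theorem shift_T (h : Tor N → ℤ) : wT b N (h + 1) = wT b N h := by
  rw [wT_eq]
  exact H857.shift_Wg _ _ _ h

theorem even_T (hb : 0 ≤ b) (h : Tor N → ℤ) : wT b N (-h) = wT b N h := by
  rw [wT_eq]
  exact H857.even_Wg _ _ _ (fun _ => hb) h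

theorem gin_T (hb : 0 ≤ b) {m : Tor N → ℝ} (hm : ∀ x, 0 < m x) : H871.Gin (wT b N) m := by
  rw [wT_eq]
  exact H22.gin_Wk _ _ (fun _ => hb) hm

theorem trans_T (h : Tor N → ℤ) (a : Tor N) : wT b N (fun x => h (x + a)) = wT b N h := by
  unfold wT
  refine Fintype.prod_equiv (Equiv.addRight a) _ _ fun x => ?_
  show wI b (h (x + (1, 0) + a) - h (x + a)) * wI b (h (x + (0, 1) + a) - h (x + a))
    = wI b (h (x + a + (1, 0)) - h (x + a)) * wI b (h (x + a + (0, 1)) - h (x + a))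
  rw [add_right_comm x (1, 0) a, add_right_comm x (0, 1) a]

end struct

section norm

variable {N : ℕ} [NeZero N]

theorem tn_zero : tn (0 : Tor N) = 0 := by
  simp [tn, nz, rep]

theorem isNm_tn : IsNm (tn : Tor N → ℝ) where
  nonneg := tn_nonneg
  zero := tn_zero
  neg := tn_neg
  tri := tn_add_le

theorem tn_e1 : tn ((1, 0) : Tor N) ≤ 1 := by
  refine (tn_le_nz (z := ((1 : ℤ), (0 : ℤ))) (by simp) (by simp)).trans (le_of_eq ?_)
  simp [nz]

theorem tn_e2 : tn ((0, 1) : Tor N) ≤ 1 := by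
  refine (tn_le_nz (z := ((0 : ℤ), (1 : ℤ))) (by simp) (by simp)).trans (le_of_eq ?_)
  simp [nz]

theorem step_nat {F : ZMod N → ℝ} {L : ℝ} (hF : ∀ a, |F (a + 1) - F a| ≤ L) (a : ZMod N)
    (k : ℕ) : |F (a + (k : ℕ)) - F a| ≤ L * k := by
  induction k with
  | zero => simp
  | succ k ih =>
    have h1 := hF (a + (k : ℕ))
    have e : a + ((k + 1 : ℕ) : ZMod N) = a + (k : ℕ) + 1 := by
      push_cast
      ring
    rw [e]
    push_cast
    have h2 := abs_le.1 ih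
    have h3 := abs_le.1 h1
    rw [abs_le]
    constructor <;> linarith [h2.1, h2.2, h3.1, h3.2]

theorem step_int {F : ZMod N → ℝ} {L : ℝ} (hF : ∀ a, |F (a + 1) - F a| ≤ L) (a : ZMod N)
    (k : ℤ) : |F (a + (k : ℤ)) - F a| ≤ L * |(k : ℝ)| := by
  obtain ⟨n, hn | hn⟩ := k.eq_nat_or_neg
  · subst hn
    have := step_nat hF a n
    simpa using this
  · subst hn
    have := step_nat hF (a + ((-(n : ℤ) : ℤ) : ZMod N)) n
    have e : a + ((-(n : ℤ) : ℤ) : ZMod N) + (n : ZMod N) = a := by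
      push_cast
      ring
    rw [e, abs_sub_comm] at this
    simpa using this

/-- slopes on nearest neighbours control slopes everywhere -/
theorem Lp_lip {L : ℝ} {f : Tor N → ℝ} (hf : f ∈ Lp tn L) : LipT (2 * L) f := by
  intro x y
  have hL : 0 ≤ L := (abs_nonneg _).trans (hf 0 0 (by rw [sub_zero, tn_zero]; norm_num))
  have k1 : ∀ c a, |f (a + 1, c) - f (a, c)| ≤ L := by
    intro c a
    apply hf
    have : ((a + 1, c) : Tor N) - (a, c) = (1, 0) := by
      ext <;> simp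
    rw [this]
    exact tn_e1
  have k2 : ∀ c a, |f (c, a + 1) - f (c, a)| ≤ L := by
    intro c a
    apply hf
    have : ((c, a + 1) : Tor N) - (c, a) = (0, 1) := by
      ext <;> simp
    rw [this]
    exact tn_e2
  set p : ℤ := (x - y).1.valMinAbs with hp
  set q : ℤ := (x - y).2.valMinAbs with hq
  have e1 : x.1 = y.1 + (p : ZMod N) := by
    rw [hp, ZMod.coe_valMinAbs, Prod.fst_sub]
    ring
  have e2 : x.2 = y.2 + (q : ZMod N) := by
    rw [hq, ZMod.coe_valMinAbs, Prod.snd_sub]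
    ring
  have h1 := step_int (F := fun a => f (a, x.2)) (k1 x.2) y.1 p
  have h2 := step_int (F := fun a => f (y.1, a)) (k2 y.1) y.2 q
  rw [← e1] at h1
  rw [← e2] at h2
  have hx : (x.1, x.2) = x := rfl
  have hy : (y.1, y.2) = y := rfl
  rw [hx] at h1
  rw [hy] at h2
  have h3 : |(p : ℝ)| ≤ tn (x - y) := abs_fst_le_nz (rep (x - y))
  have h4 : |(q : ℝ)| ≤ tn (x - y) := abs_snd_le_nz (rep (x - y))
  have h5 := mul_le_mul_of_nonneg_left h3 hL
  have h6 := mul_le_mul_of_nonneg_left h4 hL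
  have h7 := abs_le.1 h1
  have h8 := abs_le.1 h2
  rw [abs_le]
  constructor <;> linarith [h7.1, h7.2, h8.1, h8.2]

theorem lip_Lp {L : ℝ} (hL : 0 ≤ L) {f : Tor N → ℝ} (hf : LipT L f) : f ∈ Lp tn L := by
  intro z y hzy
  refine (hf z y).trans ?_
  nlinarith

theorem tn_le_N (z : Tor N) : tn z ≤ N := by
  have h1 := z.1.natAbs_valMinAbs_le
  have h2 := z.2.natAbs_valMinAbs_le
  have h3 : (z.1.valMinAbs.natAbs : ℝ) ≤ N / 2 := by
    have : z.1.valMinAbs.natAbs * 2 ≤ N := by omega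
    have : (z.1.valMinAbs.natAbs : ℝ) * 2 ≤ N := by exact_mod_cast this
    linarith
  have h4 : (z.2.valMinAbs.natAbs : ℝ) ≤ N / 2 := by
    have : z.2.valMinAbs.natAbs * 2 ≤ N := by omega
    have : (z.2.valMinAbs.natAbs : ℝ) * 2 ≤ N := by exact_mod_cast this
    linarith
  have h5 : (z.1.valMinAbs.natAbs : ℝ) = |(z.1.valMinAbs : ℝ)| := by
    rw [Nat.cast_natAbs, Int.cast_abs]
  have h6 : (z.2.valMinAbs.natAbs : ℝ) = |(z.2.valMinAbs : ℝ)| := by
    rw [Nat.cast_natAbs, Int.cast_abs]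
  rw [h5] at h3
  rw [h6] at h4
  unfold tn nz rep
  have hN : (0 : ℝ) ≤ N := Nat.cast_nonneg N
  rw [Real.sqrt_le_left hN]
  have a1 := abs_nonneg (z.1.valMinAbs : ℝ)
  have a2 := abs_nonneg (z.2.valMinAbs : ℝ)
  have b1 : (z.1.valMinAbs : ℝ) ^ 2 ≤ (N / 2) ^ 2 := by
    rw [← sq_abs]
    exact pow_le_pow_left₀ a1 h3 2
  have b2 : (z.2.valMinAbs : ℝ) ^ 2 ≤ (N / 2) ^ 2 := by
    rw [← sq_abs]
    exact pow_le_pow_left₀ a2 h4 2
  nlinarith [sq_nonneg (N : ℝ)]

end norm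

section kap

variable {V : Type*} [Fintype V]

/-- `κ ≤ U''(0)[1,1]` -/
theorem kap_le_ddU (w : (V → ℤ) → ℝ) (m : V → ℝ) :
    H871.kap w m ≤ H104.ddU w m 0 (fun _ => 1) (fun _ => 1) := by
  unfold H871.kap H104.ddU
  rw [H104.Cf_Vr]
  unfold Vr
  have e1 : H871.Q0 w m (fun _ => 1) = Ex w m 0 (fun h => lin m (fun _ => 1) h ^ 2) := by
    unfold H871.Q0 Ex lin
    rfl
  rw [e1]
  have e2 : ∑ x, m x * (1 : ℝ) * 1 = ∑ x, m x := Finset.sum_congr rfl fun x _ => by ring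
  rw [e2]
  nlinarith [sq_nonneg (Ex w m 0 (lin m (fun _ => 1)))]

variable {N : ℕ} [NeZero N]

/-- `κ ≤ y (N/ξ)²` from the one-scale hypothesis -/
theorem kap_le {w : (Tor N → ℤ) → ℝ} {ξ y a : ℝ} (h : QU w ξ y a) :
    H871.kap w (ms ξ) ≤ y / ξ ^ 2 * (N : ℝ) ^ 2 := by
  refine (kap_le_ddU w (ms ξ)).trans ((h fun _ => 1).trans (le_of_eq ?_))
  have e : dirE (fun _ : Tor N => (1 : ℝ)) = 0 := by
    unfold dirE
    simp
  rw [e, mul_zero, add_zero]
  simp only [one_pow, Finset.sum_const, Finset.card_univ, Fintype.card_prod, ZMod.card,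
    nsmul_eq_mul, mul_one]
  push_cast
  ring

end kap

end Vale.Agent.P159.TM.H870
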