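import Vale.Agent.P159.TM.H215.C3

/-!
# P159, row CHRG : the local charge functional, made local by clamping its argument

`clf nm L rB x0 g` = `g` clamped around `x0` (slope `L/2`, constant beyond distance `rB`, equal to
`g` up to distance `rB/2` when `g` has slope `L/2`).  `Ft D nm L rB x0 k χ g = xb D k χ (clf g)`.

* `Ft_cont` : continuous; `Ft_congr` : depends only on `g` at distance `< rB`;
* `Ft_charge`, `Ft_charge'` : exact charge under `g ↦ g + u` if `u = t` at distance `< rB`;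
* `Ft_le_all`, `Ft_le` : sizes; `xb_sub_Ft` : comparison with `xb` for slowly varying `g`.
-/

set_option linter.all false

open Finset
open scoped Real

namespace Vale.Agent.P159.TM.H870

open Vale.Agent.P159.TM.H215 Vale.Agent.P159.TM.H316

section clamp

variable {V : Type*} [AddCommGroup V]

/-- the clamp of `g` around `x0` -/
noncomputable def clf (nm : V → ℝ) (L rB : ℝ) (x0 : V) (g : V → ℝ) : V → ℝ :=
  fun z => cl (L / 2) (fun z => nm (z - x0)) (g x0) g (L / 2 * rB) z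

variable {nm : V → ℝ} {L rB : ℝ} {x0 : V}

theorem clf_cont (nm : V → ℝ) (L rB : ℝ) (x0 : V) : Continuous (clf nm L rB x0) := by
  refine continuous_pi fun z => ?_
  unfold clf cl
  fun_prop

/-- adding a function which is constant on the ball -/
theorem clf_add (hn : IsNm nm) (hL : 0 < L) (hrB : 0 < rB) {u : V → ℝ} {t : ℝ}
    (hu : ∀ z, nm (z - x0) < rB → u z = t) (g : V → ℝ) :
    clf nm L rB x0 (g + u) = fun z => clf nm L rB x0 g z + t := by
  funext z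
  unfold clf
  have h0 : u x0 = t := hu x0 (by rw [sub_self, hn.zero]; exact hrB)
  rw [Pi.add_apply, h0]
  have h1 : cl (L / 2) (fun z => nm (z - x0)) (g x0 + t) (g + u) (L / 2 * rB) z
      = cl (L / 2) (fun z => nm (z - x0)) (g x0 + t) (fun z => g z + t) (L / 2 * rB) z := by
    refine cl_congr (fun z hz => ?_) z
    have h2 : nm (z - x0) < rB := by
      have hL2 : 0 < L / 2 := by linarith
      exact lt_of_mul_lt_mul_left hz hL2.le
    rw [Pi.add_apply, hu z h2]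
  rw [h1, cl_add_const]

theorem clf_congr (hn : IsNm nm) (hL : 0 < L) (hrB : 0 < rB) {g g' : V → ℝ}
    (h : ∀ z, nm (z - x0) < rB → g z = g' z) : clf nm L rB x0 g = clf nm L rB x0 g' := by
  funext z
  unfold clf
  rw [h x0 (by rw [sub_self, hn.zero]; exact hrB)]
  refine cl_congr (fun z hz => h z ?_) z
  have hL2 : 0 < L / 2 := by linarith
  exact lt_of_mul_lt_mul_left hz hL2.le

theorem clf_Lp (hn : IsNm nm) (hL : 0 ≤ L) {g : V → ℝ} (hg : g ∈ Lp nm (L / 2)) :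
    clf nm L rB x0 g ∈ Lp nm (L / 2) := by
  intro z z' hzz
  refine cl_slope (by linarith) _ ?_ (hg z z' hzz)
  rw [abs_le]
  have h1 := hn.tri3 z z' x0
  have h2 := hn.tri3 z' z x0
  rw [hn.sub_comm z' z] at h2
  constructor <;> linarith

theorem clf_center (g : V → ℝ) : clf nm L rB x0 g x0 = g x0 :=
  cl_center (x0 := x0)

theorem clf_dist {g : V → ℝ} (hgd : ∀ z, |g z - g x0| ≤ L / 2 * nm (z - x0)) (z : V) :
    |clf nm L rB x0 g z - clf nm L rB x0 g x0| ≤ L / 2 * nm (z - x0) := by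
  rw [clf_center]
  exact (abs_cl_sub_le_f _ _ _ _ _).trans (hgd z)

theorem clf_eq (hL : 0 ≤ L) {g : V → ℝ} (hgd : ∀ z, |g z - g x0| ≤ L / 2 * nm (z - x0)) {z : V}
    (hz : nm (z - x0) ≤ rB / 2) : clf nm L rB x0 g z = g z := by
  apply cl_eq_self (hgd z)
  nlinarith

end clamp

section Ft

variable {V : Type*} [AddCommGroup V] [Fintype V]

/-- the local charge functional -/
noncomputable def Ft (D : (V → ℝ) → V → ℝ) (nm : V → ℝ) (L rB : ℝ) (x0 : V) (k : ℤ)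
    (χ g : V → ℝ) : ℂ := xb D k χ (clf nm L rB x0 g)

variable {D : (V → ℝ) → V → ℝ} {nm : V → ℝ} {L rB : ℝ} {x0 : V} {k : ℤ} {χ : V → ℝ}

theorem Ft_cont (hc : ∀ x, Continuous fun f => D f x) : Continuous (Ft D nm L rB x0 k χ) :=
  (xb_cont hc k χ).comp (clf_cont nm L rB x0)

theorem ch_neg (k : ℤ) (t : ℝ) : ch k (-t) = Complex.exp ((2 * π * k * t : ℝ) * Complex.I) := by
  unfold ch
  congr 1
  push_cast
  ring

/-- **exact charge** -/
theorem Ft_charge (hn : IsNm nm) (hL : 0 < L) (hrB : 0 < rB)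
    (hD : ∀ f, D (fun x => f x + 1) = D f) {u : V → ℝ} {t : ℝ}
    (hu : ∀ z, nm (z - x0) < rB → u z = t) (g : V → ℝ) :
    Ft D nm L rB x0 k χ (g + u)
      = Complex.exp ((2 * π * k * t : ℝ) * Complex.I) * Ft D nm L rB x0 k χ g := by
  unfold Ft
  rw [clf_add hn hL hrB hu, xb_shift hD, ch_neg]

theorem Ft_congr (hn : IsNm nm) (hL : 0 < L) (hrB : 0 < rB) {g g' : V → ℝ}
    (h : ∀ z, nm (z - x0) < rB → g z = g' z) :
    Ft D nm L rB x0 k χ g = Ft D nm L rB x0 k χ g' := by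
  unfold Ft
  rw [clf_congr hn hL hrB h]

theorem Ft_le_all {B : ℝ} (hB : ∀ f, ‖xb D k χ f‖ ≤ B) (g : V → ℝ) :
    ‖Ft D nm L rB x0 k χ g‖ ≤ B := hB _

/-- comparison for slowly varying backgrounds -/
theorem xb_sub_Ft {H : (V → ℝ) → V → V → ℝ} (hn : IsNm nm)
    (hc : ∀ x, Continuous fun f => D f x)
    (hH : ∀ (g u : V → ℝ) (t : ℝ) (z : V), HasDerivAt (fun t : ℝ => D (fun x => g x + t * u x) z)
      (∑ y, H (fun x => g x + t * u x) z y * u y) t)
    (hL : 0 < L) {R e : ℝ}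
    (he : ∀ g ∈ Lp nm L, ∑ z, ∑ y, (if R < nm (z - y) then |H g z y| else 0) ≤ e)
    {rX : ℝ} (hXB : 2 * (rX + R) ≤ rB) {diam : ℝ} (hdiam : ∀ z, nm z ≤ diam)
    (hχ1 : ∀ z, |χ z| ≤ 1) (hχ0 : ∀ z, rX < nm (z - x0) → χ z = 0) (hk : k ≠ 0)
    {g : V → ℝ} (hg : g ∈ Lp nm (L / 2)) (hgd : ∀ z, |g z - g x0| ≤ L / 2 * nm (z - x0)) :
    ‖xb D k χ g - Ft D nm L rB x0 k χ g‖ ≤ L * diam * e / (2 * π * |(k : ℝ)|) := by
  classical
  unfold Ft
  refine xb_sub_le hc hk ?_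
  intro s _
  have hL2 : 0 ≤ L / 2 := by linarith
  have hdiam0 : 0 ≤ diam := (hn.nonneg 0).trans (hdiam 0)
  have hgL : g ∈ Lp nm L := Lp_mono (by linarith) hg
  have hcL : clf nm L rB x0 g ∈ Lp nm L := Lp_mono (by linarith) (clf_Lp hn hL.le hg)
  have h1 := loc_of_hess Lp_conv hH (fun z y => R < nm (z - y)) he (Lp_const hcL s)
    (Lp_const hgL s) (M := L * diam) (by positivity) ?_
    (A := univ.filter (fun z => nm (z - x0) ≤ rX)) ?_ χ hχ1
  · have e1 : ∑ z ∈ univ.filter (fun z => nm (z - x0) ≤ rX),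
        χ z * (D (fun y => g y + s) z - D (fun y => clf nm L rB x0 g y + s) z)
        = ∑ x, χ x * (D (fun y => g y + s) x - D (fun y => clf nm L rB x0 g y + s) x) := by
      apply Finset.sum_subset (Finset.subset_univ _)
      intro z _ hz
      rw [Finset.mem_filter, not_and] at hz
      rw [hχ0 z (not_le.1 (hz (Finset.mem_univ _))), zero_mul]
    rw [e1] at h1
    exact h1
  · intro y
    have e1 : g y + s - (clf nm L rB x0 g y + s) = (g y - g x0) - (clf nm L rB x0 g y - g x0) := by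
      ring
    rw [e1]
    have h3 := (hgd y).trans (mul_le_mul_of_nonneg_left (hdiam (y - x0)) hL2)
    have h5 := (clf_dist (rB := rB) hgd y).trans
      (mul_le_mul_of_nonneg_left (hdiam (y - x0)) hL2)
    rw [clf_center] at h5
    have h4 := abs_le.1 h3
    have h6 := abs_le.1 h5
    rw [abs_le]
    constructor <;> linarith [h4.1, h4.2, h6.1, h6.2]
  · intro z hz y hy
    rw [Finset.mem_filter] at hz
    have h2 : rB / 2 < nm (y - x0) := by
      by_contra h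
      exact hy (by rw [clf_eq hL.le hgd (not_lt.1 h)])
    have h3 := hn.tri3 y z x0
    rw [hn.sub_comm y z] at h3
    linarith [hz.2]

end Ft

section model

variable {V : Type*} [AddCommGroup V] [Fintype V] [DecidableEq V]

/-- comparison, for the massive heights -/
theorem xb_sub_Ft_model {nm : V → ℝ} (hn : IsNm nm) {w : (V → ℤ) → ℝ} {m : V → ℝ}
    (hm : ∀ x, 0 < m x) (hW : H871.Wt w) {L R e : ℝ} (hL : 0 < L)
    (he : ∀ g ∈ Lp nm L, ∑ z, ∑ y, (if R < nm (z - y) then |Hs w m g z y| else 0) ≤ e)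
    {x0 : V} {rB rX : ℝ} (hXB : 2 * (rX + R) ≤ rB) {diam : ℝ} (hdiam : ∀ z, nm z ≤ diam)
    {χ : V → ℝ} (hχ1 : ∀ z, |χ z| ≤ 1) (hχ0 : ∀ z, rX < nm (z - x0) → χ z = 0)
    {k : ℤ} (hk : k ≠ 0) {g : V → ℝ} (hg : g ∈ Lp nm (L / 2))
    (hgd : ∀ z, |g z - g x0| ≤ L / 2 * nm (z - x0)) :
    ‖xb (Dg w m) k χ g - Ft (Dg w m) nm L rB x0 k χ g‖ ≤ L * diam * e / (2 * π * |(k : ℝ)|) := by
  obtain ⟨Wb, hwb⟩ := hW.bdd
  exact xb_sub_Ft hn (continuous_Dg hm hW.nonneg hwb hW.pos)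
    (hasDerivAt_Dg hm hW.nonneg hwb hW.pos) hL he hXB hdiam hχ1 hχ0 hk hg hgd

/-- exact charge, for the massive heights -/
theorem Ft_charge_model {nm : V → ℝ} (hn : IsNm nm) {w : (V → ℤ) → ℝ} {m : V → ℝ}
    (hm : ∀ x, 0 < m x) (hW : H871.Wt w) (hs : ∀ h, w (h + 1) = w h) {L rB : ℝ} (hL : 0 < L)
    (hrB : 0 < rB) {x0 : V} {k : ℤ} {χ u : V → ℝ} {t : ℝ}
    (hu : ∀ z, nm (z - x0) < rB → u z = t) (g : V → ℝ) :
    Ft (Dg w m) nm L rB x0 k χ (g + u)
      = Complex.exp ((2 * π * k * t : ℝ) * Complex.I) * Ft (Dg w m) nm L rB x0 k χ g := by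
  obtain ⟨Wb, hwb⟩ := hW.bdd
  exact Ft_charge hn hL hrB (fun f => Dg_one hm hW.nonneg hwb hW.pos hs f) hu g

theorem Ft_cont_model {nm : V → ℝ} {w : (V → ℤ) → ℝ} {m : V → ℝ} (hm : ∀ x, 0 < m x)
    (hW : H871.Wt w) {L rB : ℝ} {x0 : V} {k : ℤ} {χ : V → ℝ} :
    Continuous (Ft (Dg w m) nm L rB x0 k χ) := by
  obtain ⟨Wb, hwb⟩ := hW.bdd
  exact Ft_cont (continuous_Dg hm hW.nonneg hwb hW.pos)

theorem xb_cont_model {w : (V → ℤ) → ℝ} {m : V → ℝ} (hm : ∀ x, 0 < m x)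
    (hW : H871.Wt w) (k : ℤ) (χ : V → ℝ) : Continuous fun f => xb (Dg w m) k χ f := by
  obtain ⟨Wb, hwb⟩ := hW.bdd
  exact xb_cont (continuous_Dg hm hW.nonneg hwb hW.pos) k χ

/-- the partition of unity -/
theorem sum_xb_model {ι : Type*} (s : Finset ι) {w : (V → ℤ) → ℝ} {m : V → ℝ}
    (hm : ∀ x, 0 < m x) (hW : H871.Wt w) (hs : ∀ h, w (h + 1) = w h) {k : ℤ} (hk : k ≠ 0)
    (χ : ι → V → ℝ) (hχ : ∀ x, ∑ i ∈ s, χ i x = 1) (f : V → ℝ) :
    ∑ i ∈ s, xb (Dg w m) k (χ i) f = xm (H104.U w m) k f := by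
  obtain ⟨Wb, hwb⟩ := hW.bdd
  exact sum_xb s (fun f => U_one hs m f) (H104.continuous_U hm hW.nonneg hwb hW.pos)
    (continuous_Dg hm hW.nonneg hwb hW.pos) (hasDerivAt_U_const hm hW.nonneg hwb hW.pos) hk χ hχ f

end model

end Vale.Agent.P159.TM.H870
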