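import Vale.Agent.P159.TM.H77.FatTor

/-!
A6, number (hI): the difference of the averages over a box of side `L` and over its translate by
`D` has exponential moments and a second moment bounded by constants depending on `(L + D) / L`
and on the bond weights only (bare domination).
-/

open Finset
open scoped ENNReal

namespace Vale.Agent.P159.TM.H870.HI

open Vale.Agent.P159 Vale.Agent.P159.H353
open Vale.Agent.P159.TM.H60 Vale.Agent.P159.TM.H504 Vale.Agent.P159.TM.H77
open Vale.Agent.P159.TM.H426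

/-- difference of the averages over an interval and over its translate -/
lemma shift_one (p : ℤ) {L D : ℕ} (hL : 1 ≤ L) :
    ∃ φ : ℤ → ℝ, (∀ t, |φ t| ≤ 1) ∧ ∀ f : ℤ → ℝ,
      ∑ t ∈ Ico p (p + ((L + D : ℕ) : ℤ) - 1), φ t * (f (t + 1) - f t) =
        (∑ x ∈ Ico p (p + L), f x) / L - (∑ x ∈ Ico (p + D) (p + D + L), f x) / L := by
  have hL0 : (0 : ℝ) < L := by exact_mod_cast hL
  have cL : ((#(Ico p (p + L)) : ℕ) : ℝ) = L := by simp
  refine ⟨fun t => (∑ u ∈ Ico p (p + L), kk (u + D) u t) / L, fun t => ?_, fun f => ?_⟩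
  · rw [abs_div, abs_of_pos hL0, div_le_one hL0]
    calc |∑ u ∈ Ico p (p + L), kk (u + D) u t| ≤ ∑ u ∈ Ico p (p + L), (1 : ℝ) :=
          (abs_sum_le_sum_abs _ _).trans (sum_le_sum fun u _ => abs_kk _ _ _)
      _ = L := by rw [sum_const, nsmul_eq_mul, cL, mul_one]
  · have h1 : ∀ u ∈ Ico p (p + L),
        ∑ t ∈ Ico p (p + ((L + D : ℕ) : ℤ) - 1), kk (u + D) u t * (f (t + 1) - f t) =
          f u - f (u + D) := by
      intro u hu
      rw [mem_Ico] at hu
      refine tele f ?_ ?_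
      · rw [mem_Ico]; push_cast; omega
      · rw [mem_Ico]; push_cast; omega
    have h2 : ∑ t ∈ Ico p (p + ((L + D : ℕ) : ℤ) - 1),
        (∑ u ∈ Ico p (p + L), kk (u + D) u t) / L * (f (t + 1) - f t) =
        (∑ u ∈ Ico p (p + L), ∑ t ∈ Ico p (p + ((L + D : ℕ) : ℤ) - 1),
          kk (u + D) u t * (f (t + 1) - f t)) / L := by
      rw [sum_comm, sum_div]
      refine sum_congr rfl fun t _ => ?_
      rw [← sum_mul]
      ring
    have h3 : ∑ x ∈ Ico (p + D) (p + D + L), f x = ∑ u ∈ Ico p (p + L), f (u + D) := by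
      refine (sum_nbij (fun u => u + (D : ℤ)) (fun u hu => ?_) (fun u _ v _ h => ?_)
        (fun v hv => ?_) fun u _ => rfl).symm
      · rw [mem_Ico] at hu ⊢; omega
      · simpa using h
      · rw [coe_Ico, Set.mem_Ico] at hv
        exact ⟨v - D, by rw [coe_Ico, Set.mem_Ico]; omega, by ring⟩
    rw [h2, sum_congr rfl h1, sum_sub_distrib, h3]
    ring

/-- **flow from the uniform measure of a box to the uniform measure of its translate** -/
theorem shift_flow {n : ℕ} {E : Type} [Fintype E] [DecidableEq E] {s t : E → ZMod n × ZMod n}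
    {p q : ℤ} {L D : ℕ} (hL : 1 ≤ L) {j : (ℤ × ℤ) × Bool → E}
    (G : Grid s t p q (L + D) j) (hn : L + D ≤ n) :
    ∃ α : E → ℝ, (∀ u : ZMod n × ZMod n → ℝ, ∑ e, α e * (u (t e) - u (s e)) =
        bav n p q L u - bav n (p + D) q L u) ∧
      (∀ e, |α e| ≤ 1 / L) ∧ ∑ e, α e ^ 2 ≤ ((L : ℝ) + D) / L := by
  have hL0 : (0 : ℝ) < L := by exact_mod_cast hL
  obtain ⟨φ, hφ1, hφ2⟩ := shift_one p (D := D) hL
  have hcL : ((#(Ico q (q + L)) : ℕ) : ℝ) = L := by simp
  have hsub : Ico q (q + (L : ℤ)) ⊆ Ico q (q + ((L + D : ℕ) : ℤ)) := by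
    intro y hy
    rw [mem_Ico] at hy ⊢
    push_cast
    omega
  obtain ⟨α, g1, g2, g3⟩ := grid_flow G hn
    (fun z => if z.2 ∈ Ico q (q + L) then φ z.1 / L else 0) (fun _ => 0) (M := 1 / (L : ℝ))
    (by positivity) (fun z => by
      beta_reduce
      split_ifs
      · rw [abs_div, abs_of_pos hL0]
        exact div_le_div_of_nonneg_right (hφ1 _) hL0.le
      · rw [abs_zero]; positivity) (fun z => by rw [abs_zero]; positivity)
  refine ⟨α, fun u => ?_, g2, ?_⟩
  · rw [g1 u]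
    unfold Dv bav Bx
    rw [sum_product, sum_product]
    have h1 : ∑ x ∈ Ico p (p + ((L + D : ℕ) : ℤ) - 1), ∑ y ∈ Ico q (q + ((L + D : ℕ) : ℤ)),
        (if (x, y).2 ∈ Ico q (q + L) then φ (x, y).1 / L else 0) *
          (u (pt n (x + 1, y)) - u (pt n (x, y))) =
        (∑ y ∈ Ico q (q + L), ((∑ x ∈ Ico p (p + L), u (pt n (x, y))) / L -
          (∑ x ∈ Ico (p + D) (p + D + L), u (pt n (x, y))) / L)) / L := by
      rw [sum_comm, ← sum_subset hsub, sum_div]
      · refine sum_congr rfl fun y hy => ?_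
        rw [← hφ2 fun x => u (pt n (x, y)), sum_div]
        refine sum_congr rfl fun x _ => ?_
        simp only
        rw [if_pos hy]
        ring
      · intro y _ hy
        refine sum_eq_zero fun x _ => ?_
        simp only
        rw [if_neg hy, zero_mul]
    rw [h1]
    simp only [zero_mul, sum_const_zero, add_zero]
    rw [sum_sub_distrib, ← sum_div, ← sum_div,
      sum_comm (s := Ico q (q + (L : ℤ))) (t := Ico p (p + (L : ℤ))),
      sum_comm (s := Ico q (q + (L : ℤ))) (t := Ico (p + (D : ℤ)) (p + D + L))]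
    field_simp
  · rw [g3]
    unfold Fe
    have h0 : ((#(Ico p (p + ((L + D : ℕ) : ℤ) - 1)) : ℕ) : ℝ) ≤ (L : ℝ) + D := by
      rw [Int.card_Ico]
      have : (p + ((L + D : ℕ) : ℤ) - 1 - p).toNat ≤ L + D := by omega
      calc (((p + ((L + D : ℕ) : ℤ) - 1 - p).toNat : ℕ) : ℝ) ≤ ((L + D : ℕ) : ℝ) := by
            exact_mod_cast this
        _ = (L : ℝ) + D := by push_cast; ring
    have h1 : ∑ x ∈ Ico p (p + ((L + D : ℕ) : ℤ) - 1), ∑ y ∈ Ico q (q + ((L + D : ℕ) : ℤ)),
        (if (x, y).2 ∈ Ico q (q + L) then φ (x, y).1 / L else 0) ^ 2 ≤ ((L : ℝ) + D) / L := by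
      calc _ ≤ ∑ x ∈ Ico p (p + ((L + D : ℕ) : ℤ) - 1), (1 : ℝ) / L := by
            refine sum_le_sum fun x _ => ?_
            rw [← sum_subset hsub]
            · calc _ ≤ ∑ y ∈ Ico q (q + (L : ℤ)), (1 : ℝ) / L ^ 2 := by
                    refine sum_le_sum fun y hy => ?_
                    simp only
                    rw [if_pos hy, div_pow]
                    refine div_le_div_of_nonneg_right ?_ (by positivity)
                    rw [← sq_abs]
                    nlinarith [abs_nonneg (φ x), hφ1 x]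
                _ = 1 / L := by
                    rw [sum_const, nsmul_eq_mul, hcL]
                    field_simp
            · intro y _ hy
              simp only
              rw [if_neg hy]
              simp
        _ ≤ ((L : ℝ) + D) / L := by
            rw [sum_const, nsmul_eq_mul, mul_one_div]
            exact div_le_div_of_nonneg_right h0 hL0.le
    simpa using h1

section moments

variable {n : ℕ} [NeZero n] {E : Type} [Fintype E] [DecidableEq E]
  {s t : E → ZMod n × ZMod n}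

/-- **exponential moments of the difference of the averages over two translates of a box** -/
theorem mgf_shift {p q : ℤ} {L D : ℕ} (hL : 1 ≤ L) {j : (ℤ × ℤ) × Bool → E}
    (G : Grid s t p q (L + D) j) (hn : L + D ≤ n)
    {b : E → ℝ} {bb : ℝ} (hb : ∀ e, 0 ≤ b e) (hbb : ∀ e, b e ≤ bb) (hbb0 : 0 ≤ bb)
    {m : ZMod n × ZMod n → ℝ} (hm : ∀ v, 0 < m v) {θ : ℝ} (hθ : |θ| ≤ L) :
    (Summable fun h : ZMod n × ZMod n → ℤ => W1h s t (fun e => wI (b e)) (ga m) h *
      Real.exp (θ * (bav n p q L (fun x => (h x : ℝ)) -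
        bav n (p + D) q L fun x => (h x : ℝ)))) ∧
    ∑' h : ZMod n × ZMod n → ℤ, W1h s t (fun e => wI (b e)) (ga m) h *
      Real.exp (θ * (bav n p q L (fun x => (h x : ℝ)) -
        bav n (p + D) q L fun x => (h x : ℝ))) ≤
      Real.exp (θ ^ 2 * (bb * (((L : ℝ) + D) / L))) *
        ∑' h : ZMod n × ZMod n → ℤ, W1h s t (fun e => wI (b e)) (ga m) h := by
  classical
  have hL0 : (0 : ℝ) < L := by exact_mod_cast hL
  obtain ⟨α, h1, h2, h3⟩ := shift_flow hL G hn
  have hkey := bare_le s t hb ∅ (m := m) (fun x _ => hm x) (fun e => θ * α e) fun _ => 0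
  have e0 : ∀ (x : ZMod n × ZMod n) (l : ℤ), sA ∅ m x l = ga m x l := by
    intro x l
    unfold sA ga
    rw [if_neg (Finset.notMem_empty x)]
  have e1 : ∀ h : ZMod n × ZMod n → ℤ, ∑ e, θ * α e * ((h (t e) : ℝ) - h (s e)) +
      ∑ x, (0 : ℝ) * h x = θ * (bav n p q L (fun x => (h x : ℝ)) -
        bav n (p + D) q L fun x => (h x : ℝ)) := by
    intro h
    rw [← h1 fun x => (h x : ℝ), mul_sum]
    simp only [zero_mul, sum_const_zero, add_zero]
    exact sum_congr rfl fun e _ => by ring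
  simp only [e0, e1] at hkey
  refine ⟨hkey.1, hkey.2.trans ?_⟩
  refine mul_le_mul_of_nonneg_right (Real.exp_le_exp.2 ?_) (tsum_nonneg fun h =>
    mul_nonneg (Finset.prod_nonneg fun e _ => wI_nonneg (hb e) _)
      (Finset.prod_nonneg fun x _ => (Real.exp_pos _).le))
  have h7 : ∑ x ∈ (∅ : Finset (ZMod n × ZMod n))ᶜ, (0 : ℝ) ^ 2 / (2 * m x) = 0 :=
    sum_eq_zero fun x _ => by simp
  rw [h7, add_zero]
  calc ∑ e, b e * (Real.cosh (θ * α e) - 1) ≤ ∑ e, bb * (θ ^ 2 * α e ^ 2) := by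
        refine sum_le_sum fun e _ => ?_
        have h5 : |θ * α e| ≤ 1 := by
          rw [abs_mul]
          calc |θ| * |α e| ≤ L * (1 / L) := mul_le_mul hθ (h2 e) (abs_nonneg _) hL0.le
            _ = 1 := by field_simp
        have h6 := cosh_sub_one_le h5
        rw [mul_pow] at h6
        exact mul_le_mul (hbb e) h6 (by linarith [Real.one_le_cosh (θ * α e)]) hbb0
    _ = θ ^ 2 * (bb * ∑ e, α e ^ 2) := by rw [← mul_sum, ← mul_sum]; ring
    _ ≤ θ ^ 2 * (bb * (((L : ℝ) + D) / L)) :=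
        mul_le_mul_of_nonneg_left (mul_le_mul_of_nonneg_left h3 hbb0) (sq_nonneg _)

/-- **second moment of the difference of the averages over two translates of a box** -/
theorem sq_shift {p q : ℤ} {L D : ℕ} (hL : 1 ≤ L) {j : (ℤ × ℤ) × Bool → E}
    (G : Grid s t p q (L + D) j) (hn : L + D ≤ n)
    {b : E → ℝ} {bb : ℝ} (hb : ∀ e, 0 ≤ b e) (hbb : ∀ e, b e ≤ bb) (hbb0 : 0 ≤ bb)
    {m : ZMod n × ZMod n → ℝ} (hm : ∀ v, 0 < m v) :
    (Summable fun h : ZMod n × ZMod n → ℤ => W1h s t (fun e => wI (b e)) (ga m) h *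
      (bav n p q L (fun x => (h x : ℝ)) - bav n (p + D) q L fun x => (h x : ℝ)) ^ 2) ∧
    ∑' h : ZMod n × ZMod n → ℤ, W1h s t (fun e => wI (b e)) (ga m) h *
      (bav n p q L (fun x => (h x : ℝ)) - bav n (p + D) q L fun x => (h x : ℝ)) ^ 2 ≤
      4 * Real.exp (bb * (((L : ℝ) + D) / L)) *
        ∑' h : ZMod n × ZMod n → ℤ, W1h s t (fun e => wI (b e)) (ga m) h := by
  have hL1 : (1 : ℝ) ≤ L := by exact_mod_cast hL
  obtain ⟨s1, l1⟩ := mgf_shift hL G hn hb hbb hbb0 hm (θ := 1) (by rw [abs_one]; exact hL1)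
  obtain ⟨s2, l2⟩ := mgf_shift hL G hn hb hbb hbb0 hm (θ := -1)
    (by rw [abs_neg, abs_one]; exact hL1)
  set F : (ZMod n × ZMod n → ℤ) → ℝ := fun h => bav n p q L (fun x => (h x : ℝ)) -
    bav n (p + D) q L fun x => (h x : ℝ) with hF
  have hW : ∀ h : ZMod n × ZMod n → ℤ, 0 ≤ W1h s t (fun e => wI (b e)) (ga m) h := fun h =>
    mul_nonneg (prod_nonneg fun e _ => wI_nonneg (hb e) _)
      (prod_nonneg fun x _ => (Real.exp_pos _).le)
  have hle : ∀ h : ZMod n × ZMod n → ℤ, W1h s t (fun e => wI (b e)) (ga m) h * F h ^ 2 ≤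
      2 * (W1h s t (fun e => wI (b e)) (ga m) h * Real.exp (1 * F h) +
        W1h s t (fun e => wI (b e)) (ga m) h * Real.exp (-1 * F h)) := by
    intro h
    have := pow_two_le (F h)
    calc _ ≤ W1h s t (fun e => wI (b e)) (ga m) h *
          (2 * (Real.exp (F h) + Real.exp (-F h))) := mul_le_mul_of_nonneg_left this (hW h)
      _ = _ := by rw [one_mul, neg_one_mul]; ring
  have hS : Summable fun h : ZMod n × ZMod n → ℤ =>
      W1h s t (fun e => wI (b e)) (ga m) h * F h ^ 2 :=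
    Summable.of_nonneg_of_le (fun h => mul_nonneg (hW h) (sq_nonneg _)) hle
      ((s1.add s2).mul_left 2)
  refine ⟨hS, (hS.tsum_le_tsum hle ((s1.add s2).mul_left 2)).trans ?_⟩
  rw [tsum_mul_left, s1.tsum_add s2]
  have e1 : (1 : ℝ) ^ 2 * (bb * (((L : ℝ) + D) / L)) = bb * (((L : ℝ) + D) / L) := by ring
  have e2 : (-1 : ℝ) ^ 2 * (bb * (((L : ℝ) + D) / L)) = bb * (((L : ℝ) + D) / L) := by ring
  rw [e1] at l1
  rw [e2] at l2
  linarith

end moments

/-- **(hI) on the torus**: box of side `L` and its translate by `D ≤ 3 L`; the constant depends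
on an upper bound of `b` only -/
theorem hI_tor {N : ℕ} [NeZero N] {b bb : ℝ} (hb : 0 ≤ b) (hbb : b ≤ bb)
    {m : ZMod N × ZMod N → ℝ} (hm : ∀ v, 0 < m v) (p q : ℤ) {L D : ℕ} (hL : 1 ≤ L)
    (hD : D ≤ 3 * L) (hn : L + D ≤ N) :
    (Summable fun h : ZMod N × ZMod N → ℤ =>
      W1h (H459.tS (N := N)) H459.tT (fun _ => wI b) (ga m) h *
      (bav N p q L (fun x => (h x : ℝ)) - bav N (p + D) q L fun x => (h x : ℝ)) ^ 2) ∧
    ∑' h : ZMod N × ZMod N → ℤ, W1h (H459.tS (N := N)) H459.tT (fun _ => wI b) (ga m) h *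
      (bav N p q L (fun x => (h x : ℝ)) - bav N (p + D) q L fun x => (h x : ℝ)) ^ 2 ≤
      4 * Real.exp (4 * bb) *
        ∑' h : ZMod N × ZMod N → ℤ,
          W1h (H459.tS (N := N)) H459.tT (fun _ => wI b) (ga m) h := by
  have hL0 : (0 : ℝ) < L := by exact_mod_cast hL
  have hbb0 : 0 ≤ bb := hb.trans hbb
  obtain ⟨h1, h2⟩ := sq_shift (s := H459.tS (N := N)) (t := H459.tT) hL (grid_tor N p q (L + D)) hn
    (b := fun _ => b) (fun _ => hb) (fun _ => hbb) hbb0 hm
  refine ⟨h1, h2.trans ?_⟩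
  refine mul_le_mul_of_nonneg_right ?_ (tsum_nonneg fun h =>
    mul_nonneg (prod_nonneg fun e _ => wI_nonneg hb _)
      (prod_nonneg fun x _ => (Real.exp_pos _).le))
  refine mul_le_mul_of_nonneg_left (Real.exp_le_exp.2 ?_) (by norm_num)
  have hDR : (D : ℝ) ≤ 3 * L := by exact_mod_cast hD
  have : ((L : ℝ) + D) / L ≤ 4 := by
    rw [div_le_iff₀ hL0]
    linarith
  calc bb * (((L : ℝ) + D) / L) ≤ bb * 4 := mul_le_mul_of_nonneg_left this hbb0
    _ = 4 * bb := by ring

end Vale.Agent.P159.TM.H870.HI
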